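import Vale.Agent.P113.Poly

/-! Certified rational approximation of symbolic polynomials at rational points. -/

namespace Vale.Agent.P113

open Filter Topology

def Apx (a : ℕ → Q × Q) (v : ℝ) : Prop :=
  (∀ k, |ratOf (a k).1 - v| ≤ ratOf (a k).2) ∧ Tendsto (fun k => ratOf (a k).2) atTop (𝓝 0)

def addA (x y : Q × Q) : Q × Q := (addQ x.1 y.1, addQ x.2 y.2)
def negA (x : Q × Q) : Q × Q := (negQ x.1, x.2)
def mulA (x y : Q × Q) : Q × Q :=
  (mulQ x.1 y.1, addQ (addQ (mulQ (absQ x.1) y.2) (mulQ (absQ y.1) x.2)) (mulQ x.2 y.2))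

@[fun_prop] theorem p_addA {α : Type} [Primcodable α] {f g : α → Q × Q} (hf : Primrec f)
    (hg : Primrec g) : Primrec (fun a => addA (f a) (g a)) := by unfold addA; fun_prop
@[fun_prop] theorem p_negA : Primrec negA := by unfold negA; fun_prop
@[fun_prop] theorem p_mulA {α : Type} [Primcodable α] {f g : α → Q × Q} (hf : Primrec f)
    (hg : Primrec g) : Primrec (fun a => mulA (f a) (g a)) := by unfold mulA; fun_prop

theorem Apx.const (c : Q) : Apx (fun _ => (c, natQ 0)) (ratOf c) := by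
  constructor
  · intro k; simp
  · simp

theorem Apx.tendsto {a : ℕ → Q × Q} {v : ℝ} (h : Apx a v) :
    Tendsto (fun k => ratOf (a k).1) atTop (𝓝 v) := by
  rw [tendsto_iff_norm_sub_tendsto_zero]
  exact squeeze_zero (fun k => norm_nonneg _) (fun k => h.1 k) h.2

theorem Apx.add {a b : ℕ → Q × Q} {v w : ℝ} (ha : Apx a v) (hb : Apx b w) :
    Apx (fun k => addA (a k) (b k)) (v + w) := by
  constructor
  · intro k
    simp only [addA, ratOf_addQ]
    have h1 := ha.1 k
    have h2 := hb.1 k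
    calc |ratOf (a k).1 + ratOf (b k).1 - (v + w)|
        = |(ratOf (a k).1 - v) + (ratOf (b k).1 - w)| := by ring_nf
      _ ≤ _ := (abs_add_le _ _).trans (add_le_add h1 h2)
  · simp only [addA, ratOf_addQ]
    simpa using ha.2.add hb.2

theorem Apx.neg {a : ℕ → Q × Q} {v : ℝ} (ha : Apx a v) : Apx (fun k => negA (a k)) (-v) := by
  constructor
  · intro k
    simp only [negA, ratOf_negQ]
    have h1 := ha.1 k
    rw [← abs_neg]
    convert h1 using 2
    ring
  · exact ha.2

theorem Apx.mul {a b : ℕ → Q × Q} {v w : ℝ} (ha : Apx a v) (hb : Apx b w) :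
    Apx (fun k => mulA (a k) (b k)) (v * w) := by
  constructor
  · intro k
    simp only [mulA, ratOf_addQ, ratOf_mulQ, ratOf_absQ]
    have h1 := ha.1 k
    have h2 := hb.1 k
    set x := ratOf (a k).1
    set y := ratOf (b k).1
    have e : x * y - v * w = x * (y - w) + y * (x - v) - (x - v) * (y - w) := by ring
    rw [e]
    have h3 : |x * (y - w)| ≤ |x| * ratOf (b k).2 := by
      rw [abs_mul]; exact mul_le_mul_of_nonneg_left h2 (abs_nonneg _)
    have h4 : |y * (x - v)| ≤ |y| * ratOf (a k).2 := by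
      rw [abs_mul]; exact mul_le_mul_of_nonneg_left h1 (abs_nonneg _)
    have h5 : |(x - v) * (y - w)| ≤ ratOf (a k).2 * ratOf (b k).2 := by
      rw [abs_mul]; exact mul_le_mul h1 h2 (abs_nonneg _) ((abs_nonneg _).trans h1)
    calc _ ≤ |x * (y - w) + y * (x - v)| + |(x - v) * (y - w)| := abs_sub _ _
      _ ≤ |x * (y - w)| + |y * (x - v)| + |(x - v) * (y - w)| := by
          gcongr; exact abs_add_le _ _
      _ ≤ _ := by linarith
  · simp only [mulA, ratOf_addQ, ratOf_mulQ, ratOf_absQ]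
    have := ((ha.tendsto.abs.mul hb.2).add (hb.tendsto.abs.mul ha.2)).add (ha.2.mul hb.2)
    simpa using this

def hiQ (u v n : ℕ) : Q := ((n * v) ^ n, 0, (n * v + u) ^ n - 1)
def loQ (u v n : ℕ) : Q := ((n * v - u) ^ n, 0, (n * v) ^ n - 1)
def powQ (u v b : ℕ) : Q := (u ^ b, 0, v ^ b - 1)

def apG (b : ℕ) (A : Q) (k : ℕ) : Q × Q :=
  cond (leQ A (natQ 0)) (natQ 0, natQ 0)
    (mulQ (powQ (A.2.2 + 1) (A.1 - A.2.1) b) (hiQ (A.2.2 + 1) (A.1 - A.2.1) (k + 1)),
      mulQ (powQ (A.2.2 + 1) (A.1 - A.2.1) b)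
        (addQ (hiQ (A.2.2 + 1) (A.1 - A.2.1) (k + 1))
          (negQ (loQ (A.2.2 + 1) (A.1 - A.2.1) (k + 1)))))

def apD (A : Q) (k : ℕ) : Q × Q :=
  (invQ (addQ (apG 0 A k).1 (apG 0 (addQ (natQ 1) (negQ A)) k).1),
    mulQ (natQ 64) (addQ (apG 0 A k).2 (apG 0 (addQ (natQ 1) (negQ A)) k).2))

@[fun_prop] theorem p_apG {α : Type} [Primcodable α] {f : α → ℕ} {g : α → Q} {h : α → ℕ}
    (hf : Primrec f) (hg : Primrec g) (hh : Primrec h) :
    Primrec (fun a => apG (f a) (g a) (h a)) := by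
  unfold apG hiQ loQ powQ; fun_prop
@[fun_prop] theorem p_apD {α : Type} [Primcodable α] {g : α → Q} {h : α → ℕ}
    (hg : Primrec g) (hh : Primrec h) : Primrec (fun a => apD (g a) (h a)) := by
  unfold apD; fun_prop

theorem ratOf_pair (a c : ℕ) (hc : 0 < c) : ratOf (a, 0, c - 1) = (a : ℝ) / c := by
  simp only [ratOf]
  have : ((c - 1 : ℕ) : ℝ) + 1 = c := by
    have : c - 1 + 1 = c := by omega
    exact_mod_cast this
  rw [this]; simp

theorem ratOf_hiQ (u v n : ℕ) (hv : 0 < v) (hn : 0 < n) :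
    ratOf (hiQ u v n) = ((1 + ((u : ℝ) / v) / n) ^ n)⁻¹ := by
  rw [hiQ, ratOf_pair _ _ (by positivity)]
  have h1 : (0 : ℝ) < v := by exact_mod_cast hv
  have h2 : (0 : ℝ) < n := by exact_mod_cast hn
  have : 1 + ((u : ℝ) / v) / n = (n * v + u) / (n * v) := by field_simp
  rw [this, div_pow, inv_div]
  push_cast
  rfl

theorem ratOf_loQ (u v n : ℕ) (hv : 0 < v) (hn : 0 < n) :
    ratOf (loQ u v n) = (max 0 (1 - ((u : ℝ) / v) / n)) ^ n := by
  rw [loQ, ratOf_pair _ _ (by positivity)]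
  have h1 : (0 : ℝ) < v := by exact_mod_cast hv
  have h2 : (0 : ℝ) < n := by exact_mod_cast hn
  have e : 1 - ((u : ℝ) / v) / n = (n * v - u) / (n * v) := by field_simp
  push_cast
  rw [← div_pow]
  congr 1
  rw [e]
  rcases le_total u (n * v) with h | h
  · rw [Nat.cast_sub h, max_eq_right]
    · push_cast; rfl
    · have : (u : ℝ) ≤ n * v := by exact_mod_cast h
      exact div_nonneg (by linarith) (by positivity)
  · rw [Nat.sub_eq_zero_of_le h, max_eq_left]
    · simp
    · have : (n : ℝ) * v ≤ u := by exact_mod_cast h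
      exact div_nonpos_of_nonpos_of_nonneg (by linarith) (by positivity)

theorem ratOf_powQ (u v b : ℕ) (hv : 0 < v) : ratOf (powQ u v b) = ((u : ℝ) / v) ^ b := by
  rw [powQ, ratOf_pair _ _ (by positivity), div_pow]
  push_cast
  rfl

theorem apG_spec (b : ℕ) (A : Q) :
    Apx (apG b A) (GG b (ratOf A)) ∧ ∀ k, GG b (ratOf A) ≤ ratOf (apG b A k).1 := by
  by_cases hA : ratOf A ≤ 0
  · have h1 : leQ A (natQ 0) = true := (leQ_iff _ _).2 (by simpa using hA)
    have h2 : GG b (ratOf A) = 0 := by simp [GG, expNegInvGlue.zero_of_nonpos hA]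
    have h3 : apG b A = fun _ => (natQ 0, natQ 0) := by funext k; simp [apG, h1]
    rw [h2, h3]
    exact ⟨by simpa using Apx.const (natQ 0), fun k => by simp⟩
  · have h1 : leQ A (natQ 0) = false := by
      cases h : leQ A (natQ 0)
      · rfl
      · exact absurd (by simpa using (leQ_iff _ _).1 h) hA
    have hA' : 0 < ratOf A := not_le.1 hA
    have hlt := (ratOf_pos_iff A).1 hA'
    have hv : 0 < A.1 - A.2.1 := by omega
    set s : ℝ := ((A.2.2 + 1 : ℕ) : ℝ) / ((A.1 - A.2.1 : ℕ) : ℝ) with hs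
    have hs' : s = (ratOf A)⁻¹ := by
      rw [hs, ratOf, inv_div, Nat.cast_sub hlt.le]; push_cast; rfl
    have hs0 : 0 < s := by rw [hs']; positivity
    have hG : GG b (ratOf A) = s ^ b * Real.exp (-s) := by
      simp [GG, expNegInvGlue, hA, hs']
    have c1 : ∀ k, ratOf (apG b A k).1 = s ^ b * ((1 + s / ((k + 1 : ℕ) : ℝ)) ^ (k + 1))⁻¹ := by
      intro k
      simp only [apG, h1, cond_false, ratOf_mulQ]
      rw [ratOf_powQ _ _ _ hv, ratOf_hiQ _ _ _ hv (Nat.succ_pos k)]
    have c2 : ∀ k, ratOf (apG b A k).2 = s ^ b * (((1 + s / ((k + 1 : ℕ) : ℝ)) ^ (k + 1))⁻¹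
        - (max 0 (1 - s / ((k + 1 : ℕ) : ℝ))) ^ (k + 1)) := by
      intro k
      simp only [apG, h1, cond_false, ratOf_mulQ, ratOf_addQ, ratOf_negQ]
      rw [ratOf_powQ _ _ _ hv, ratOf_hiQ _ _ _ hv (Nat.succ_pos k),
        ratOf_loQ _ _ _ hv (Nat.succ_pos k), ← sub_eq_add_neg]
    have hi : ∀ n : ℕ, 0 < n → Real.exp (-s) ≤ ((1 + s / (n : ℝ)) ^ n)⁻¹ := by
      intro n hn
      have hn' : (0 : ℝ) < n := by exact_mod_cast hn
      rw [Real.exp_neg]
      refine inv_anti₀ (by positivity) ?_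
      calc (1 + s / (n : ℝ)) ^ n ≤ (Real.exp (s / n)) ^ n := by
            gcongr
            linarith [Real.add_one_le_exp (s / n)]
        _ = Real.exp s := by
            rw [← Real.exp_nat_mul]; congr 1; field_simp
    have lo : ∀ n : ℕ, 0 < n → (max 0 (1 - s / (n : ℝ))) ^ n ≤ Real.exp (-s) := by
      intro n hn
      have hn' : (0 : ℝ) < n := by exact_mod_cast hn
      rcases le_total s n with h | h
      · rw [max_eq_right]
        · exact Real.one_sub_div_pow_le_exp_neg h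
        · rw [sub_nonneg, div_le_one hn']; exact h
      · rw [max_eq_left]
        · rw [zero_pow hn.ne']; exact (Real.exp_pos _).le
        · rw [sub_nonpos, one_le_div hn']; exact h
    have hsb : 0 ≤ s ^ b := by positivity
    refine ⟨⟨fun k => ?_, ?_⟩, fun k => ?_⟩
    · rw [c1, c2, hG, ← mul_sub, abs_mul, abs_of_nonneg hsb,
        abs_of_nonneg (sub_nonneg.2 (hi _ (Nat.succ_pos k)))]
      have := lo _ (Nat.succ_pos k)
      gcongr
    · simp only [c2]
      have t1 : Tendsto (fun n : ℕ => ((1 + s / (n : ℝ)) ^ n)⁻¹) atTop (𝓝 (Real.exp (-s))) := by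
        rw [Real.exp_neg]
        exact (Real.tendsto_one_add_div_pow_exp s).inv₀ (Real.exp_pos _).ne'
      have t2 : Tendsto (fun n : ℕ => (max 0 (1 - s / (n : ℝ))) ^ n) atTop
          (𝓝 (Real.exp (-s))) := by
        refine (Real.tendsto_one_add_div_pow_exp (-s)).congr' ?_
        filter_upwards [eventually_ge_atTop (⌈s⌉₊ + 1)] with n hn
        have h1 : s ≤ n := (Nat.le_ceil s).trans (by exact_mod_cast (by omega))
        have h2 : (0 : ℝ) < n := by exact_mod_cast (by omega : 0 < n)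
        rw [max_eq_right, neg_div, ← sub_eq_add_neg]
        rw [sub_nonneg, div_le_one h2]; exact h1
      have t3 := ((t1.sub t2).comp (tendsto_add_atTop_nat 1)).const_mul (s ^ b)
      simpa using t3
    · rw [c1, hG]
      exact mul_le_mul_of_nonneg_left (hi _ (Nat.succ_pos k)) hsb

theorem denom_ge (x : ℝ) : 1 / 8 ≤ GG 0 x + GG 0 (1 - x) := by
  have h0 : (1 : ℝ) / 8 ≤ expNegInvGlue (1 / 2) := by
    have : expNegInvGlue (1 / 2) = Real.exp (-2) := by
      simp [expNegInvGlue]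
    rw [this, Real.exp_neg, one_div]
    refine inv_anti₀ (Real.exp_pos _) ?_
    have h1 := Real.exp_one_lt_d9
    have h2 : Real.exp 2 = Real.exp 1 * Real.exp 1 := by rw [← Real.exp_add]; norm_num
    have h3 := Real.exp_pos 1
    nlinarith
  rw [GG_zero, GG_zero]
  rcases le_total (1 / 2) x with h | h
  · have := expNegInvGlue.monotone h
    have := expNegInvGlue.nonneg (1 - x)
    linarith
  · have := expNegInvGlue.monotone (show (1 : ℝ) / 2 ≤ 1 - x by linarith)
    have := expNegInvGlue.nonneg x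
    linarith

theorem apD_spec (A : Q) : Apx (apD A) (DD (ratOf A)) := by
  obtain ⟨h1, h1'⟩ := apG_spec 0 A
  obtain ⟨h2, h2'⟩ := apG_spec 0 (addQ (natQ 1) (negQ A))
  have e : ratOf (addQ (natQ 1) (negQ A)) = 1 - ratOf A := by simp; ring
  rw [e] at h2 h2'
  have hE := denom_ge (ratOf A)
  constructor
  · intro k
    have a1 := h1.1 k
    have a2 := h2.1 k
    have b1 := h1' k
    have b2 := h2' k
    simp only [apD, ratOf_mulQ, ratOf_addQ, ratOf_natQ]
    rw [ratOf_invQ _ (by rw [ratOf_addQ]; linarith), ratOf_addQ, DD]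
    set C := ratOf (apG 0 A k).1 + ratOf (apG 0 (addQ (natQ 1) (negQ A)) k).1 with hC
    set E := GG 0 (ratOf A) + GG 0 (1 - ratOf A) with hEE
    have hCE : E ≤ C := by linarith
    have hE0 : 0 < E := by linarith
    have hC0 : 0 < C := by linarith
    have h3 : C - E ≤ ratOf (apG 0 A k).2 + ratOf (apG 0 (addQ (natQ 1) (negQ A)) k).2 := by
      have := le_abs_self (ratOf (apG 0 A k).1 - GG 0 (ratOf A))
      have := le_abs_self (ratOf (apG 0 (addQ (natQ 1) (negQ A)) k).1 - GG 0 (1 - ratOf A))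
      linarith
    have h4 : C⁻¹ - E⁻¹ = -((C - E) * (C * E)⁻¹) := by field_simp; ring
    rw [h4, abs_neg, abs_of_nonneg (mul_nonneg (by linarith) (by positivity))]
    have h5 : (C * E)⁻¹ ≤ 64 := by
      rw [inv_le_comm₀ (by positivity) (by norm_num)]
      nlinarith
    calc (C - E) * (C * E)⁻¹ ≤ (C - E) * 64 := mul_le_mul_of_nonneg_left h5 (by linarith)
      _ ≤ _ := by push_cast; linarith
  · simp only [apD, ratOf_mulQ, ratOf_addQ, ratOf_natQ]
    simpa using (h1.2.add h2.2).const_mul ((64 : ℕ) : ℝ)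

abbrev Z4 : Type := Q × Q × Q × Q

noncomputable def toP (z : Z4) : P4 := ![ratOf z.1, ratOf z.2.1, ratOf z.2.2.1, ratOf z.2.2.2]

def crdQ (j : ℕ) (z : Z4) : Q :=
  cond (Nat.beq j 0) z.1 (cond (Nat.beq j 1) z.2.1 (cond (Nat.beq j 2) z.2.2.1
    (cond (Nat.beq j 3) z.2.2.2 (natQ 0))))

theorem ratOf_crdQ (j : ℕ) (z : Z4) : ratOf (crdQ j z) = crd j (toP z) := by
  rcases j with _ | _ | _ | _ | j
  · simp [crdQ, crd, toP, Nat.beq]
  · simp [crdQ, crd, toP, Nat.beq]
  · simp [crdQ, crd, toP, Nat.beq]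
  · simp [crdQ, crd, toP, Nat.beq]
  · have : ¬ (j + 1 + 1 + 1 + 1 < 4) := by omega
    simp [crdQ, crd, Nat.beq, this]

def argQ (a : Atom) (z : Z4) : Q := addQ (mulQ a.2.2.2.1 (crdQ a.2.2.1 z)) a.2.2.2.2

def apA (a : Atom) (z : Z4) (k : ℕ) : Q × Q :=
  cond (Nat.beq a.1 0) (argQ a z, natQ 0)
    (cond (Nat.beq a.1 1) (apG a.2.1 (argQ a z) k) (apD (argQ a z) k))

def apM (m : Mono) (z : Z4) (k : ℕ) : Q × Q :=
  m.foldr (fun a s => mulA (apA a z k) s) (natQ 1, natQ 0)

def apP (P : Poly) (z : Z4) (k : ℕ) : Q × Q :=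
  P.foldr (fun m s => addA (apM m z k) s) (natQ 0, natQ 0)

@[fun_prop] theorem p_crdQ {α : Type} [Primcodable α] {f : α → ℕ} {g : α → Z4}
    (hf : Primrec f) (hg : Primrec g) : Primrec (fun a => crdQ (f a) (g a)) := by
  unfold crdQ; fun_prop
@[fun_prop] theorem p_argQ {α : Type} [Primcodable α] {f : α → Atom} {g : α → Z4}
    (hf : Primrec f) (hg : Primrec g) : Primrec (fun a => argQ (f a) (g a)) := by
  unfold argQ; fun_prop
@[fun_prop] theorem p_apA {α : Type} [Primcodable α] {f : α → Atom} {g : α → Z4} {h : α → ℕ}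
    (hf : Primrec f) (hg : Primrec g) (hh : Primrec h) :
    Primrec (fun a => apA (f a) (g a) (h a)) := by
  unfold apA; fun_prop
@[fun_prop] theorem p_apM {α : Type} [Primcodable α] {f : α → Mono} {g : α → Z4} {h : α → ℕ}
    (hf : Primrec f) (hg : Primrec g) (hh : Primrec h) :
    Primrec (fun a => apM (f a) (g a) (h a)) := by
  unfold apM; fun_prop
@[fun_prop] theorem p_apP {α : Type} [Primcodable α] {f : α → Poly} {g : α → Z4} {h : α → ℕ}
    (hf : Primrec f) (hg : Primrec g) (hh : Primrec h) :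
    Primrec (fun a => apP (f a) (g a) (h a)) := by
  unfold apP; fun_prop

theorem ratOf_argQ (a : Atom) (z : Z4) : ratOf (argQ a z) = argA a (toP z) := by
  simp [argQ, argA, ratOf_crdQ]

theorem apA_spec (a : Atom) (z : Z4) : Apx (apA a z) (evA a (toP z)) := by
  rw [evA, ← ratOf_argQ]
  obtain ⟨k, b, r⟩ := a
  rcases k with _ | _ | k
  · exact Apx.const _
  · exact (apG_spec _ _).1
  · have : phi (k + 1 + 1) b = DD := by simp [phi]
    simp only [this]
    exact apD_spec _

theorem apM_spec (m : Mono) (z : Z4) : Apx (apM m z) (evM m (toP z)) := by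
  induction m with
  | nil =>
    have := Apx.const (natQ 1)
    simp only [ratOf_natQ, Nat.cast_one] at this
    rw [evM_nil]; exact this
  | cons a m ih => rw [evM_cons]; exact (apA_spec a z).mul ih

theorem apP_spec (P : Poly) (z : Z4) : Apx (apP P z) (evP P (toP z)) := by
  induction P with
  | nil =>
    have := Apx.const (natQ 0)
    simp only [ratOf_natQ, Nat.cast_zero] at this
    rw [evP_nil]; exact this
  | cons a m ih => rw [evP_cons]; exact (apM_spec a z).add ih

end Vale.Agent.P113
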