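import Mathlib

/-! Definitions used by the statement for P113. -/

namespace Vale.Agent.P113

open Set

/-- Points and vectors of `ℝ³`; fields on the torus are `ℤ³`-periodic fields on `ℝ³`. -/
abbrev V : Type := Fin 3 → ℝ

/-- `g' x` is the derivative of `g` at `x` in the `i`-th coordinate direction, for every `x`. -/
def HasCoordDeriv (i : Fin 3) (g g' : V → ℝ) : Prop :=
  ∀ x : V, HasDerivAt (fun h : ℝ => g (x + Pi.single i h)) (g' x) 0

/-- Joint continuity on `[0,T] × ℝ³`. -/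
def ContOn (T : ℝ) (g : ℝ → V → ℝ) : Prop :=
  ContinuousOn (fun z : ℝ × V => g z.1 z.2) (Icc 0 T ×ˢ univ)

/-- `ℤ³`-periodicity, so that `g` is a function on the torus. -/
def Periodic3 {E : Type} (g : V → E) : Prop :=
  ∀ (x : V) (k : Fin 3 → ℤ), g (fun j => x j + (k j : ℝ)) = g x

/-- Classical solution on `[0,T] × 𝕋³` of forced Navier-Stokes from rest. -/
def IsClassical (ν : ℝ) (f : ℝ → V → V) (T : ℝ) (u : ℝ → V → V) (p : ℝ → V → ℝ) : Prop :=
  ∃ (ut : Fin 3 → ℝ → V → ℝ) (ux : Fin 3 → Fin 3 → ℝ → V → ℝ)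
    (uxx : Fin 3 → Fin 3 → Fin 3 → ℝ → V → ℝ) (px : Fin 3 → ℝ → V → ℝ),
    (∀ t ∈ Icc 0 T, Periodic3 (u t) ∧ Periodic3 (p t)) ∧
    (∀ i, ∀ t ∈ Icc 0 T, ∀ x, HasDerivWithinAt (fun s => u s x i) (ut i t x) (Icc 0 T) t) ∧
    (∀ i j, ∀ t ∈ Icc 0 T, HasCoordDeriv j (fun x => u t x i) (ux i j t)) ∧
    (∀ i j k, ∀ t ∈ Icc 0 T, HasCoordDeriv k (ux i j t) (uxx i j k t)) ∧
    (∀ j, ∀ t ∈ Icc 0 T, HasCoordDeriv j (p t) (px j t)) ∧
    (∀ i, ContOn T (fun t x => u t x i)) ∧ (∀ i, ContOn T (ut i)) ∧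
    (∀ i j, ContOn T (ux i j)) ∧ (∀ i j k, ContOn T (uxx i j k)) ∧
    ContOn T p ∧ (∀ j, ContOn T (px j)) ∧
    (∀ i, ∀ t ∈ Icc 0 T, ∀ x, ut i t x + ∑ j, u t x j * ux i j t x =
      - px i t x + ν * ∑ j, uxx i j j t x + f t x i) ∧
    (∀ t ∈ Icc 0 T, ∀ x, ∑ j, ux j j t x = 0) ∧
    (∀ x, u 0 x = 0) ∧
    (∀ t ∈ Icc 0 T, ∫ x in Icc (0 : V) 1, p t x = 0)

/-- `X` solves `X' = u(t, X)` for `t ≥ 0` with `X 0 = a` (lifted to `ℝ³`). -/
def IsTrajectory (u : ℝ → V → V) (a : V) (X : ℝ → V) : Prop :=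
  X 0 = a ∧ ∀ t, 0 ≤ t → HasDerivWithinAt X (u t (X t)) (Ici 0) t

/-- The covering map `ℝ³ → 𝕋³ = (ℝ/ℤ)³`. -/
def toTorus (x : V) : Fin 3 → AddCircle (1 : ℝ) := fun j => (x j : AddCircle (1 : ℝ))

/-- Deterministic one-tape Turing machine: states `Fin (nQ+1)`, symbols `Fin (nS+1)` with
blank `0`; `δ q a` is the new state, the written symbol and the move (`true` is right). -/
structure TM where
  nQ : ℕ
  nS : ℕ
  start : Fin (nQ + 1)
  halt : Fin (nQ + 1) → Bool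
  δ : Fin (nQ + 1) → Fin (nS + 1) → Fin (nQ + 1) × Fin (nS + 1) × Bool

/-- Configurations: state, two-sided tape, head position. -/
abbrev TM.Cfg (M : TM) : Type := Fin (M.nQ + 1) × (ℤ → Fin (M.nS + 1)) × ℤ

/-- One step of the machine; a halting configuration is left unchanged. -/
def TM.step (M : TM) (c : M.Cfg) : M.Cfg :=
  if M.halt c.1 = true then c else
    ((M.δ c.1 (c.2.1 c.2.2)).1, Function.update c.2.1 c.2.2 (M.δ c.1 (c.2.1 c.2.2)).2.1,
      if (M.δ c.1 (c.2.1 c.2.2)).2.2 = true then c.2.2 + 1 else c.2.2 - 1)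

/-- Initial configuration: `w` on cells `0,1,...`, blank elsewhere, head on cell `0`. -/
def TM.init (M : TM) (w : List (Fin (M.nS + 1))) : M.Cfg :=
  (M.start, fun n => if 0 ≤ n then w.getD n.toNat 0 else 0, 0)

/-- `M` halts on `w`. -/
def TM.Halts (M : TM) (w : List (Fin (M.nS + 1))) : Prop :=
  ∃ n : ℕ, M.halt (M.step^[n] (M.init w)).1 = true

/-- The finite description of a machine given to algorithms. -/
def TM.code (M : TM) : ℕ × ℕ × ℕ × List Bool × List (List (ℕ × ℕ × Bool)) :=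
  (M.nQ, M.nS, M.start.val, List.ofFn M.halt,
    List.ofFn fun q => List.ofFn fun a => ((M.δ q a).1.val, (M.δ q a).2.1.val, (M.δ q a).2.2))

/-- The rational number `(a - b) / (c + 1)` named by a triple `(a, b, c)`. -/
noncomputable def ratOf (r : ℕ × ℕ × ℕ) : ℝ := ((r.1 : ℝ) - (r.2.1 : ℝ)) / ((r.2.2 : ℝ) + 1)

/-- Computable real numbers. -/
def ComputableReal (ν : ℝ) : Prop :=
  ∃ g : ℕ → ℕ × ℕ × ℕ, Computable g ∧ ∀ k : ℕ, |ratOf (g k) - ν| ≤ 1 / ((k : ℝ) + 1)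

/-- Mixed derivative along a list of space-time coordinate directions (`0` is time). -/
noncomputable def mixed : List (Fin 4) → ((Fin 4 → ℝ) → ℝ) → (Fin 4 → ℝ) → ℝ
  | [], g => g
  | i :: α, g => fun z => fderiv ℝ (mixed α g) z (Pi.single i 1)

/-- The program `c` returns every mixed derivative of every component of `f` at every rational
point to every prescribed rational accuracy. -/
def Computes (c : Nat.Partrec.Code) (f : ℝ → V → V) : Prop :=
  ∀ (α : List (Fin 4)) (i : Fin 3) (z : Fin 4 → ℕ × ℕ × ℕ) (ε : ℕ × ℕ × ℕ), 0 < ratOf ε →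
    ∃ r : ℕ × ℕ × ℕ,
      Encodable.encode r ∈
        c.eval (Encodable.encode (α.map Fin.val, i.val, (z 0, z 1, z 2, z 3), ε)) ∧
      |ratOf r - mixed α (fun y => f (y 0) (Fin.tail y) i) (fun j => ratOf (z j))| ≤ ratOf ε

end Vale.Agent.P113
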