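import Vale.Agent.P113.Rules

/-! The velocity field of a machine with input, and the motion of the marked particle. -/

namespace Vale.Agent.P113

open Filter Topology Set

noncomputable def vel (cd : MC) (w : List ℕ) (i : Fin 3) : P4 → ℝ := UU (GP cd i) (IP cd w i)

noncomputable def cx (x : ℝ) : ℝ := Int.fract x - 1 / 4

theorem cx_half {X : ℝ} (h : Half X) : cx (1 / 4 + X) = X := by
  rw [cx, Int.fract_eq_self.2 ⟨by linarith [h.1], by linarith [h.2]⟩]; ring

def axs (n : ℕ) : Fin 3 :=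
  if n % 8 = 1 ∨ n % 8 = 4 then 1 else if n % 8 = 2 ∨ n % 8 = 6 then 2 else 0

noncomputable def gs (cd : MC) (w : List ℕ) (n : ℕ) (x : V) : ℝ :=
  if n = 0 then enc (2 * KK cd) [2 * cd.2.2.1 + 1] 0
  else if n = 1 then enc (2 * KK cd) w 0
  else if n % 8 = 2 then F2 cd (cx (x 0)) (cx (x 1))
  else if n % 8 = 3 then F3 cd (cx (x 1)) (cx (x 2))
  else if n % 8 = 4 then F4 cd (cx (x 0)) (cx (x 2))
  else if n % 8 = 5 then F5 cd (cx (x 1)) (cx (x 2))
  else if n % 8 = 6 then F6 cd (cx (x 0)) (cx (x 1))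
  else 0

theorem gs_indep (cd : MC) (w : List ℕ) (n : ℕ) (x : V) (s : ℝ) :
    gs cd w n (x + Pi.single (axs n) s) = gs cd w n x := by
  unfold gs
  split_ifs with h0 h1 h2 h3 h4 h5 h6
  · rfl
  · rfl
  · simp [axs, h2]
  · simp [axs, h3]
  · simp [axs, h4]
  · simp [axs, h5]
  · simp [axs, h6]
  · rfl

theorem encA_snd (cd : MC) (ω : List ℕ) :
    ratOf (encA (2 * KK cd) ω).2 = enc (2 * KK cd) ω 0 := by
  have := five_le_KK cd
  have h := evAff_encA (B := 2 * KK cd) (by omega) ω 0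
  simp only [evAff, mul_zero, zero_add] at h
  rw [h]; push_cast; rfl

theorem evP_IP (cd : MC) (w : List ℕ) (p : P4) :
    evP (IP cd w 0) p = beta 0 (p 0) * enc (2 * KK cd) [2 * cd.2.2.1 + 1] 0 ∧
    evP (IP cd w 1) p = beta 1 (p 0) * enc (2 * KK cd) w 0 ∧ evP (IP cd w 2) p = 0 := by
  refine ⟨?_, ?_, ?_⟩
  · simp only [IP, Nat.beq, cond_true, evP_mulP, evP_bP, evP_cons, evP_nil, evM_cons, evM_nil,
      evA_cst, encA_snd, mul_one, add_zero]
  · simp only [IP, Nat.beq, cond_true, cond_false, evP_mulP, evP_bP, evP_cons, evP_nil, evM_cons,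
      evM_nil, evA_cst, encA_snd, mul_one, add_zero]
  · simp only [IP, Nat.beq, cond_false, evP_nil]

theorem evP_GP (cd : MC) (p : P4) :
    evP (GP cd 0) (fr p) = beta 3 (Int.fract (p 0)) * F3 cd (cx (p 2)) (cx (p 3)) +
      beta 5 (Int.fract (p 0)) * F5 cd (cx (p 2)) (cx (p 3)) ∧
    evP (GP cd 1) (fr p) = beta 4 (Int.fract (p 0)) * F4 cd (cx (p 1)) (cx (p 3)) ∧
    evP (GP cd 2) (fr p) = beta 2 (Int.fract (p 0)) * F2 cd (cx (p 1)) (cx (p 2)) +
      beta 6 (Int.fract (p 0)) * F6 cd (cx (p 1)) (cx (p 2)) := by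
  refine ⟨?_, ?_, ?_⟩
  · simp only [GP, Nat.beq, cond_true, evP_append, evP_mulP, evP_bP, evP_G3, evP_G5, fr, cx]
  · simp only [GP, Nat.beq, cond_true, cond_false, evP_mulP, evP_bP, evP_G4, fr, cx]
  · simp only [GP, Nat.beq, cond_false, evP_append, evP_mulP, evP_bP, evP_G2, evP_G6, fr, cx]

theorem vel_slot (cd : MC) (w : List ℕ) (n : ℕ) (t : ℝ) (h1 : (n : ℝ) ≤ 8 * t)
    (h2 : 8 * t ≤ n + 1) (x : V) :
    (fun i => vel cd w i (Fin.cons t x)) = Pi.single (axs n) (beta n t * gs cd w n x) := by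
  obtain ⟨a0, a1, a2⟩ := evP_IP cd w (Fin.cons t x)
  obtain ⟨b0, b1, b2⟩ := evP_GP cd (Fin.cons t x)
  have c0 : (Fin.cons t x : P4) 0 = t := rfl
  have c1 : (Fin.cons t x : P4) 1 = x 0 := rfl
  have c2 : (Fin.cons t x : P4) 2 = x 1 := rfl
  have c3 : (Fin.cons t x : P4) 3 = x 2 := rfl
  rw [c0, beta_slot h1 h2] at a0 a1
  simp only [c0, c1, c2, c3] at b0 b1 b2
  rw [beta_fract h1 h2 (by norm_num), beta_fract h1 h2 (by norm_num)] at b0 b2
  rw [beta_fract h1 h2 (by norm_num)] at b1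
  have v0 : vel cd w 0 (Fin.cons t x) = _ := congrArg₂ (· + ·) b0 a0
  have v1 : vel cd w 1 (Fin.cons t x) = _ := congrArg₂ (· + ·) b1 a1
  have v2 : vel cd w 2 (Fin.cons t x) = _ := congrArg₂ (· + ·) b2 a2
  have key : (fun i => vel cd w i (Fin.cons t x)) = ![vel cd w 0 (Fin.cons t x),
      vel cd w 1 (Fin.cons t x), vel cd w 2 (Fin.cons t x)] := by
    funext i; fin_cases i <;> rfl
  rw [key, v0, v1, v2]
  by_cases h0 : n = 0
  · subst h0
    funext i; fin_cases i <;> simp [axs, gs]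
  by_cases h1 : n = 1
  · subst h1
    funext i; fin_cases i <;> simp [axs, gs]
  have hm : n % 8 < 8 := Nat.mod_lt _ (by norm_num)
  unfold axs gs
  generalize n % 8 = r at hm ⊢
  funext i
  interval_cases r <;> fin_cases i <;> simp [h0, h1]

noncomputable def vec (X Y Z : ℝ) : V := ![1 / 4 + X, 1 / 4 + Y, 1 / 4 + Z]

theorem vec_add0 (X Y Z s : ℝ) : vec X Y Z + Pi.single 0 s = vec (X + s) Y Z := by
  funext i; fin_cases i <;> simp [vec, add_assoc]
theorem vec_add1 (X Y Z s : ℝ) : vec X Y Z + Pi.single 1 s = vec X (Y + s) Z := by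
  funext i; fin_cases i <;> simp [vec, add_assoc]
theorem vec_add2 (X Y Z s : ℝ) : vec X Y Z + Pi.single 2 s = vec X Y (Z + s) := by
  funext i; fin_cases i <;> simp [vec, add_assoc]
theorem vec_0 (X Y Z : ℝ) : vec X Y Z 0 = 1 / 4 + X := rfl
theorem vec_1 (X Y Z : ℝ) : vec X Y Z 1 = 1 / 4 + Y := rfl
theorem vec_2 (X Y Z : ℝ) : vec X Y Z 2 = 1 / 4 + Z := rfl

noncomputable def PP (cd : MC) (w : List ℕ) : ℕ → V := pos (vec 0 0 0) axs (gs cd w)

theorem PP_succ (cd : MC) (w : List ℕ) (n : ℕ) :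
    PP cd w (n + 1) = PP cd w n + Pi.single (axs n) (gs cd w n (PP cd w n)) := rfl

section steps
variable {cd : MC} {w : List ℕ} {n : ℕ} {X Y Z : ℝ} (h : PP cd w n = vec X Y Z)
include h

theorem step2 (hn : n % 8 = 2) (hX : Half X) (hY : Half Y) :
    PP cd w (n + 1) = vec X Y (Z + F2 cd X Y) := by
  have h0 : n ≠ 0 := by omega
  have h1 : n ≠ 1 := by omega
  have ha : axs n = 2 := by simp [axs, hn]
  have hg : ∀ x, gs cd w n x = F2 cd (cx (x 0)) (cx (x 1)) := by intro x; simp [gs, hn, h0, h1]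
  rw [PP_succ, h, ha, hg, vec_add2, vec_0, vec_1, cx_half hX, cx_half hY]

theorem step3 (hn : n % 8 = 3) (hY : Half Y) (hZ : Half Z) :
    PP cd w (n + 1) = vec (X + F3 cd Y Z) Y Z := by
  have h0 : n ≠ 0 := by omega
  have h1 : n ≠ 1 := by omega
  have ha : axs n = 0 := by simp [axs, hn]
  have hg : ∀ x, gs cd w n x = F3 cd (cx (x 1)) (cx (x 2)) := by intro x; simp [gs, hn, h0, h1]
  rw [PP_succ, h, ha, hg, vec_add0, vec_1, vec_2, cx_half hY, cx_half hZ]

theorem step4 (hn : n % 8 = 4) (hX : Half X) (hZ : Half Z) :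
    PP cd w (n + 1) = vec X (Y + F4 cd X Z) Z := by
  have h0 : n ≠ 0 := by omega
  have h1 : n ≠ 1 := by omega
  have ha : axs n = 1 := by simp [axs, hn]
  have hg : ∀ x, gs cd w n x = F4 cd (cx (x 0)) (cx (x 2)) := by intro x; simp [gs, hn, h0, h1]
  rw [PP_succ, h, ha, hg, vec_add1, vec_0, vec_2, cx_half hX, cx_half hZ]

theorem step5 (hn : n % 8 = 5) (hY : Half Y) (hZ : Half Z) :
    PP cd w (n + 1) = vec (X + F5 cd Y Z) Y Z := by
  have h0 : n ≠ 0 := by omega
  have h1 : n ≠ 1 := by omega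
  have ha : axs n = 0 := by simp [axs, hn]
  have hg : ∀ x, gs cd w n x = F5 cd (cx (x 1)) (cx (x 2)) := by intro x; simp [gs, hn, h0, h1]
  rw [PP_succ, h, ha, hg, vec_add0, vec_1, vec_2, cx_half hY, cx_half hZ]

theorem step6 (hn : n % 8 = 6) (hX : Half X) (hY : Half Y) :
    PP cd w (n + 1) = vec X Y (Z + F6 cd X Y) := by
  have h0 : n ≠ 0 := by omega
  have h1 : n ≠ 1 := by omega
  have ha : axs n = 2 := by simp [axs, hn]
  have hg : ∀ x, gs cd w n x = F6 cd (cx (x 0)) (cx (x 1)) := by intro x; simp [gs, hn, h0, h1]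
  rw [PP_succ, h, ha, hg, vec_add2, vec_0, vec_1, cx_half hX, cx_half hY]

theorem step_idle (h2 : 2 ≤ n) (hn : n % 8 = 7 ∨ n % 8 = 0 ∨ n % 8 = 1) :
    PP cd w (n + 1) = vec X Y Z := by
  have h0 : n ≠ 0 := by omega
  have h1 : n ≠ 1 := by omega
  have hg : ∀ x, gs cd w n x = 0 := by
    intro x; rcases hn with hn | hn | hn <;> simp [gs, hn, h0, h1]
  rw [PP_succ, hg, Pi.single_zero, add_zero, h]

end steps

noncomputable def emb (cd : MC) (μ : MCfg) : V :=
  vec (enc (2 * KK cd) (μ.1 :: μ.2.1) 0) (enc (2 * KK cd) μ.2.2 0) 0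

theorem PP_two (cd : MC) (w : List ℕ) :
    PP cd w 0 = vec 0 0 0 ∧ PP cd w 1 = vec (enc (2 * KK cd) [2 * cd.2.2.1 + 1] 0) 0 0 ∧
      PP cd w 2 = emb cd (mu0 cd w) := by
  have h0 : PP cd w 0 = vec 0 0 0 := rfl
  have h1 : PP cd w 1 = vec (enc (2 * KK cd) [2 * cd.2.2.1 + 1] 0) 0 0 := by
    have ha : axs 0 = 0 := by simp [axs]
    rw [PP_succ, h0, ha, vec_add0, gs, if_pos rfl, zero_add]
  refine ⟨h0, h1, ?_⟩
  have ha : axs 1 = 1 := by simp [axs]
  rw [PP_succ, h1, ha, vec_add1, gs, if_neg one_ne_zero, if_pos rfl, zero_add]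
  rfl

theorem half_zero : Half 0 := ⟨le_rfl, by norm_num⟩

theorem period_halt {M : TM} {w : List ℕ} {μ : MCfg} (hv : Valid M.code μ) {n : ℕ}
    (hn : n % 8 = 2) (h : PP M.code w n = emb M.code μ) (hh : hl M.code (μ.1 / 2) = true) :
    3 / 4 < PP M.code w (n + 1) 2 ∧ PP M.code w (n + 1) 2 < 1 := by
  have hξ := enc_half hv.restL_lt half_zero
  have hη := enc_half hv.restR_lt half_zero
  have hσ := hv.1
  have hc := hv.top_lt
  rw [emb, (enc_src _ μ).1, (enc_src _ μ).2] at h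
  rw [step2 h hn (enc_half (dig_pW hσ hc) hξ) (enc_half (dig_qW hσ hc) hη),
    F2_val hσ hc hξ hη, vec_2, hW, hh, cond_true]
  have hK : (5 : ℝ) ≤ KK M.code := by exact_mod_cast five_le_KK M.code
  simp only [enc]
  push_cast
  obtain ⟨a1, a2⟩ := hξ
  have hK2 : (0 : ℝ) < 2 * KK M.code := by linarith
  constructor
  · have : 1 / 2 < ((KK M.code : ℝ) + 1 + enc (2 * KK M.code) (restL μ) 0) / (2 * KK M.code) := by
      rw [lt_div_iff₀ hK2]; linarith
    linarith
  · have : ((KK M.code : ℝ) + 1 + enc (2 * KK M.code) (restL μ) 0) / (2 * KK M.code) < 3 / 4 := by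
      rw [div_lt_iff₀ hK2]; linarith
    linarith

def Low (x : V) : Prop := 1 / 4 ≤ x 2 ∧ x 2 ≤ 3 / 4

theorem low_vec (X Y : ℝ) {Z : ℝ} (h : Half Z) : Low (vec X Y Z) := by
  rw [Low, vec_2]; constructor <;> linarith [h.1, h.2]

theorem period_run {M : TM} {w : List ℕ} {μ : MCfg} (hv : Valid M.code μ) {n : ℕ}
    (hn : n % 8 = 2) (h : PP M.code w n = emb M.code μ) (hh : hl M.code (μ.1 / 2) = false) :
    PP M.code w (n + 8) = emb M.code (next M.code μ) ∧ ∀ j < 8, Low (PP M.code w (n + j)) := by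
  have hξ := enc_half hv.restL_lt half_zero
  have hη := enc_half hv.restR_lt half_zero
  have hσ := hv.1
  have hc := hv.top_lt
  rw [emb, (enc_src _ μ).1, (enc_src _ μ).2] at h
  have hp := enc_half (dig_pW hσ hc) hξ
  have hq := enc_half (dig_qW hσ hc) hη
  have hw := enc_half (dig_wW hσ hc) hξ
  have hp' := enc_half (dig_pT hσ hc) hξ
  have hq' := enc_half (dig_qT hσ hc) hη
  have s3 := step2 h hn hp hq
  have e : hW M.code μ.1 (top μ) = wW μ.1 (top μ) := by rw [hW, hh]; rfl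
  rw [F2_val hσ hc hξ hη, e, zero_add] at s3
  have s4 := step3 s3 (by omega) hq hw
  rw [F3_val hσ hc hξ hη, add_sub_cancel] at s4
  have s5 := step4 s4 (by omega) hη hw
  rw [F4_val hσ hc hξ hη, add_sub_cancel] at s5
  have s6 := step5 s5 (by omega) hq' hw
  rw [F5_val hσ hc hξ hη, add_sub_cancel] at s6
  have s7 := step6 s6 (by omega) hp' hq'
  rw [F6_val hσ hc hξ hη, add_neg_cancel] at s7
  have s8 := step_idle s7 (by omega) (by omega)
  have s9 := step_idle s8 (by omega) (by omega)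
  have s10 := step_idle s9 (by omega) (by omega)
  refine ⟨?_, fun j hj => ?_⟩
  · rw [emb, (enc_tgt _ _ μ).1, (enc_tgt _ _ μ).2]
    exact s10
  · interval_cases j
    · rw [add_zero, h]; exact low_vec _ _ half_zero
    · rw [s3]; exact low_vec _ _ hw
    · rw [s4]; exact low_vec _ _ hw
    · rw [s5]; exact low_vec _ _ hw
    · rw [s6]; exact low_vec _ _ hw
    · rw [s7]; exact low_vec _ _ half_zero
    · rw [s8]; exact low_vec _ _ half_zero
    · rw [s9]; exact low_vec _ _ half_zero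

theorem valid_iter (M : TM) (w : List (Fin (M.nS + 1))) (k : ℕ) :
    Valid M.code ((next M.code)^[k] (mu0 M.code (w.map Fin.val))) := by
  induction k with
  | zero => exact valid_init M w
  | succ k ih => rw [Function.iterate_succ_apply']; exact ih.next

theorem PP_iter (M : TM) (w : List (Fin (M.nS + 1))) (k : ℕ)
    (h : ∀ j < k, hl M.code (((next M.code)^[j] (mu0 M.code (w.map Fin.val))).1 / 2) = false) :
    PP M.code (w.map Fin.val) (8 * k + 2) =
      emb M.code ((next M.code)^[k] (mu0 M.code (w.map Fin.val))) := by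
  induction k with
  | zero => exact (PP_two _ _).2.2
  | succ k ih =>
    have h1 := ih fun j hj => h j (by omega)
    rw [Function.iterate_succ_apply']
    exact (period_run (valid_iter M w k) (by omega) h1 (h k (by omega))).1

theorem PP_halt (M : TM) (w : List (Fin (M.nS + 1))) (h : M.Halts w) :
    ∃ n, 3 / 4 < PP M.code (w.map Fin.val) n 2 ∧ PP M.code (w.map Fin.val) n 2 < 1 := by
  have h1 := (halts_iff M w).1 h
  classical
  refine ⟨8 * Nat.find h1 + 2 + 1, period_halt (valid_iter M w _) (by omega)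
    (PP_iter M w _ fun j hj => ?_) (Nat.find_spec h1)⟩
  simpa using Nat.find_min h1 hj

theorem PP_low (M : TM) (w : List (Fin (M.nS + 1))) (h : ¬ M.Halts w) (n : ℕ) :
    Low (PP M.code (w.map Fin.val) n) := by
  have h1 : ∀ j, hl M.code (((next M.code)^[j] (mu0 M.code (w.map Fin.val))).1 / 2) = false := by
    intro j
    cases hh : hl M.code (((next M.code)^[j] (mu0 M.code (w.map Fin.val))).1 / 2)
    · rfl
    · exact absurd ((halts_iff M w).2 ⟨j, hh⟩) h
  rcases n with _ | _ | n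
  · rw [(PP_two _ _).1]; exact low_vec _ _ half_zero
  · rw [zero_add, (PP_two _ _).2.1]; exact low_vec _ _ half_zero
  · have := (period_run (valid_iter M w (n / 8)) (by omega)
      (PP_iter M w (n / 8) fun j _ => h1 j) (h1 _)).2 (n % 8) (Nat.mod_lt _ (by norm_num))
    have e : 8 * (n / 8) + 2 + n % 8 = n + 1 + 1 := by omega
    rwa [e] at this

end Vale.Agent.P113
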