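import Vale.Agent.P113.Defs

/-! A two-stack machine with history records simulating a Turing machine. -/

namespace Vale.Agent.P113

abbrev MC : Type := ℕ × ℕ × ℕ × List Bool × List (List (ℕ × ℕ × Bool))

def mS (cd : MC) : ℕ := cd.2.1 + 1
def nS2 (cd : MC) : ℕ := 2 * (cd.1 + 1)
def KK (cd : MC) : ℕ := mS cd + nS2 cd * (mS cd + 1)
def dl (cd : MC) (q a : ℕ) : ℕ × ℕ × Bool := (cd.2.2.2.2.getD q []).getD a (0, 0, false)
def hl (cd : MC) (q : ℕ) : Bool := cd.2.2.2.1.getD q false
def sg2 (cd : MC) (σ c : ℕ) : ℕ :=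
  cond (Nat.ble (mS cd) c) σ (2 * (dl cd (σ / 2) c).1 + cond (dl cd (σ / 2) c).2.2 1 0)
def ee (cd : MC) (σ c : ℕ) : ℕ := cond (Nat.ble (mS cd) c) c (dl cd (σ / 2) c).2.1
def rr (cd : MC) (σ c : ℕ) : ℕ := mS cd + σ * (mS cd + 1) + cond (Nat.ble (mS cd) c) (mS cd) c

abbrev MCfg : Type := ℕ × List ℕ × List ℕ

def top (μ : MCfg) : ℕ := if μ.1 % 2 = 0 then μ.2.1.headD 0 else μ.2.2.headD 0
def restL (μ : MCfg) : List ℕ := if μ.1 % 2 = 0 then μ.2.1.tail else μ.2.1
def restR (μ : MCfg) : List ℕ := if μ.1 % 2 = 0 then μ.2.2 else μ.2.2.tail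

def next (cd : MC) (μ : MCfg) : MCfg :=
  if sg2 cd μ.1 (top μ) % 2 = 0 then
    (sg2 cd μ.1 (top μ), restL μ, rr cd μ.1 (top μ) :: ee cd μ.1 (top μ) :: restR μ)
  else (sg2 cd μ.1 (top μ), rr cd μ.1 (top μ) :: ee cd μ.1 (top μ) :: restL μ, restR μ)

def Valid (cd : MC) (μ : MCfg) : Prop :=
  μ.1 < nS2 cd ∧ (∀ x ∈ μ.2.1, x < KK cd) ∧ ∀ x ∈ μ.2.2, x < KK cd

theorem ble_true {a b : ℕ} (h : a ≤ b) : Nat.ble a b = true := Nat.ble_eq_true_of_le h
theorem ble_false {a b : ℕ} (h : b < a) : Nat.ble a b = false := by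
  cases hb : Nat.ble a b
  · rfl
  · exact absurd (Nat.le_of_ble_eq_true hb) (by omega)

theorem getD_ofFn {β : Type} {n : ℕ} (f : Fin n → β) (i : Fin n) (d : β) :
    (List.ofFn f).getD i d = f i := by
  rw [List.getD_eq_getElem (hn := by simp)]
  simp only [List.getElem_ofFn, Fin.eta]

theorem step_halt (M : TM) (c : M.Cfg) (h : M.halt c.1 = true) : M.step c = c := by
  unfold TM.step
  exact if_pos h

theorem dl_code (M : TM) (q : Fin (M.nQ + 1)) (a : Fin (M.nS + 1)) :
    dl M.code q a = ((M.δ q a).1.val, (M.δ q a).2.1.val, (M.δ q a).2.2) := by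
  simp only [dl, TM.code]
  rw [getD_ofFn, getD_ofFn]

theorem hl_code (M : TM) (q : Fin (M.nQ + 1)) : hl M.code q = M.halt q := by
  simp only [hl, TM.code]
  rw [getD_ofFn]

theorem mS_code (M : TM) : mS M.code = M.nS + 1 := rfl
theorem nS2_code (M : TM) : nS2 M.code = 2 * (M.nQ + 1) := rfl

theorem mS_le_KK (cd : MC) : mS cd < KK cd := by
  simp only [KK, nS2]; nlinarith
theorem nS2_le_KK (cd : MC) : nS2 cd < KK cd := by
  simp only [KK, mS]; nlinarith
theorem five_le_KK (cd : MC) : 5 ≤ KK cd := by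
  simp only [KK, mS, nS2]; nlinarith

theorem rr_ge (cd : MC) (σ c : ℕ) : mS cd ≤ rr cd σ c := by
  simp only [rr]; omega

theorem rr_lt (cd : MC) {σ : ℕ} (c : ℕ) (h : σ < nS2 cd) : rr cd σ c < KK cd := by
  have h1 : cond (Nat.ble (mS cd) c) (mS cd) c ≤ mS cd := by
    rcases le_or_gt (mS cd) c with h | h
    · simp [ble_true h]
    · simp [ble_false h, h.le]
  have h2 : (σ + 1) * (mS cd + 1) ≤ nS2 cd * (mS cd + 1) := Nat.mul_le_mul_right _ h
  simp only [rr, KK]
  nlinarith

theorem rr_inj (cd : MC) {σ c σ' c' : ℕ} (h1 : rr cd σ c = rr cd σ' c')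
    (h2 : ee cd σ c = ee cd σ' c') : σ = σ' ∧ c = c' := by
  have key : ∀ a b a' b' : ℕ, b ≤ mS cd → b' ≤ mS cd →
      mS cd + a * (mS cd + 1) + b = mS cd + a' * (mS cd + 1) + b' → a = a' ∧ b = b' := by
    intro a b a' b' hb hb' h
    have h3 : a = a' := by
      rcases lt_trichotomy a a' with hl | hl | hl
      · have : (a + 1) * (mS cd + 1) ≤ a' * (mS cd + 1) := Nat.mul_le_mul_right _ hl
        nlinarith
      · exact hl
      · have : (a' + 1) * (mS cd + 1) ≤ a * (mS cd + 1) := Nat.mul_le_mul_right _ hl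
        nlinarith
    subst h3
    exact ⟨rfl, by omega⟩
  simp only [rr, ee] at h1 h2
  rcases le_or_gt (mS cd) c with h | h <;> rcases le_or_gt (mS cd) c' with h' | h'
  · simp only [ble_true h, ble_true h', cond_true] at h1 h2
    exact ⟨(key _ _ _ _ le_rfl le_rfl h1).1, h2⟩
  · simp only [ble_true h, ble_false h', cond_true, cond_false] at h1 h2
    have := (key _ _ _ _ le_rfl h'.le h1).2
    omega
  · simp only [ble_false h, ble_true h', cond_true, cond_false] at h1 h2
    have := (key _ _ _ _ h.le le_rfl h1).2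
    omega
  · simp only [ble_false h, ble_false h', cond_true, cond_false] at h1 h2
    exact key _ _ _ _ h.le h'.le h1

theorem sg2_ee_lt (M : TM) {σ c : ℕ} (hσ : σ < nS2 M.code) (hc : c < KK M.code) :
    sg2 M.code σ c < nS2 M.code ∧ ee M.code σ c < KK M.code := by
  simp only [sg2, ee]
  rcases le_or_gt (mS M.code) c with h | h
  · simp only [ble_true h, cond_true]; exact ⟨hσ, hc⟩
  · simp only [ble_false h, cond_false]
    have hq : σ / 2 < M.nQ + 1 := by rw [nS2_code] at hσ; omega
    have := dl_code M ⟨σ / 2, hq⟩ ⟨c, h⟩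
    simp only at this
    rw [this]
    have a1 := (M.δ ⟨σ / 2, hq⟩ ⟨c, h⟩).1.isLt
    have a2 := (M.δ ⟨σ / 2, hq⟩ ⟨c, h⟩).2.1.isLt
    have a3 := mS_le_KK M.code
    rw [mS_code] at a3
    rw [nS2_code]
    refine ⟨?_, by simp only; omega⟩
    cases (M.δ ⟨σ / 2, hq⟩ ⟨c, h⟩).2.2 <;> simp only [cond_true, cond_false] <;> omega

theorem headD_lt {K : ℕ} (hK : 0 < K) {l : List ℕ} (h : ∀ x ∈ l, x < K) : l.headD 0 < K := by
  cases l with
  | nil => exact hK
  | cons a l => exact h a (by simp)

theorem Valid.top_lt {cd : MC} {μ : MCfg} (h : Valid cd μ) : top μ < KK cd := by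
  have := five_le_KK cd
  unfold top
  split_ifs
  · exact headD_lt (by omega) h.2.1
  · exact headD_lt (by omega) h.2.2

theorem Valid.restL_lt {cd : MC} {μ : MCfg} (h : Valid cd μ) : ∀ x ∈ restL μ, x < KK cd := by
  unfold restL
  split_ifs
  · exact fun x hx => h.2.1 x (List.mem_of_mem_tail hx)
  · exact h.2.1

theorem Valid.restR_lt {cd : MC} {μ : MCfg} (h : Valid cd μ) : ∀ x ∈ restR μ, x < KK cd := by
  unfold restR
  split_ifs
  · exact h.2.2
  · exact fun x hx => h.2.2 x (List.mem_of_mem_tail hx)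

theorem Valid.next {M : TM} {μ : MCfg} (h : Valid M.code μ) : Valid M.code (next M.code μ) := by
  have h1 := sg2_ee_lt M h.1 h.top_lt
  have h2 := rr_lt M.code (top μ) h.1
  unfold Vale.Agent.P113.next
  split_ifs
  · refine ⟨h1.1, h.restL_lt, ?_⟩
    simp only [List.mem_cons]
    rintro x (rfl | rfl | hx)
    · exact h2
    · exact h1.2
    · exact h.restR_lt x hx
  · refine ⟨h1.1, ?_, h.restR_lt⟩
    simp only [List.mem_cons]
    rintro x (rfl | rfl | hx)
    · exact h2
    · exact h1.2
    · exact h.restL_lt x hx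

/-- The real (tape) symbols of a stack. -/
def real (m : ℕ) (l : List ℕ) (k : ℕ) : ℕ := (l.filter fun x => decide (x < m)).getD k 0

theorem real_cons_ge {m a : ℕ} (h : m ≤ a) (l : List ℕ) : real m (a :: l) = real m l := by
  funext k
  simp only [real]
  rw [List.filter_cons_of_neg (by simpa using h)]

theorem real_cons_zero {m a : ℕ} (h : a < m) (l : List ℕ) : real m (a :: l) 0 = a := by
  simp only [real]
  rw [List.filter_cons_of_pos (by simpa using h)]
  rfl

theorem real_cons_succ {m a : ℕ} (h : a < m) (l : List ℕ) (k : ℕ) :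
    real m (a :: l) (k + 1) = real m l k := by
  simp only [real]
  rw [List.filter_cons_of_pos (by simpa using h)]
  rfl

theorem real_tail_ge {m : ℕ} (hm : 0 < m) {l : List ℕ} (h : m ≤ l.headD 0) :
    real m l.tail = real m l := by
  cases l with
  | nil => rfl
  | cons a l => exact (real_cons_ge h l).symm

theorem real_head {m : ℕ} {l : List ℕ} (h : l.headD 0 < m) : real m l 0 = l.headD 0 := by
  cases l with
  | nil => rfl
  | cons a l => exact real_cons_zero h l

theorem real_tail {m : ℕ} {l : List ℕ} (h : l.headD 0 < m) (k : ℕ) :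
    real m l.tail k = real m l (k + 1) := by
  cases l with
  | nil => rfl
  | cons a l => exact (real_cons_succ h l k).symm

def Rel (M : TM) (μ : MCfg) (c : M.Cfg) : Prop :=
  μ.1 / 2 = c.1.val ∧ ∀ k : ℕ,
    (c.2.1 (c.2.2 + 1 - (μ.1 % 2 : ℕ) + k)).val = real (M.nS + 1) μ.2.2 k ∧
    (c.2.1 (c.2.2 - (μ.1 % 2 : ℕ) - k)).val = real (M.nS + 1) μ.2.1 k

theorem next_garbage {cd : MC} {μ : MCfg} (h : mS cd ≤ top μ) :
    next cd μ = if μ.1 % 2 = 0 then (μ.1, μ.2.1.tail, rr cd μ.1 (top μ) :: top μ :: μ.2.2)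
      else (μ.1, rr cd μ.1 (top μ) :: top μ :: μ.2.1, μ.2.2.tail) := by
  simp only [next, sg2, ee, ble_true h, cond_true, restL, restR]
  split_ifs <;> rfl

theorem Rel.garbage {M : TM} {μ : MCfg} {c : M.Cfg} (h : Rel M μ c) (hg : mS M.code ≤ top μ) :
    Rel M (next M.code μ) c := by
  rw [next_garbage hg]
  have hr := rr_ge M.code μ.1 (top μ)
  rw [mS_code] at hg hr
  split_ifs with hd
  · refine ⟨h.1, fun k => ?_⟩
    simp only
    rw [real_cons_ge hr, real_cons_ge hg, real_tail_ge (Nat.succ_pos _) (by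
      simpa [top, hd] using hg)]
    exact h.2 k
  · refine ⟨h.1, fun k => ?_⟩
    simp only
    rw [real_cons_ge hr, real_cons_ge hg, real_tail_ge (Nat.succ_pos _) (by
      simpa [top, hd] using hg)]
    exact h.2 k

theorem Rel.real_step {M : TM} {μ : MCfg} {c : M.Cfg} (h : Rel M μ c) (hg : top μ < mS M.code)
    (hh : M.halt c.1 = false) : Rel M (next M.code μ) (M.step c) := by
  obtain ⟨q, tp, h0⟩ := c
  obtain ⟨σ, L, R⟩ := μ
  obtain ⟨hq, hk⟩ := h
  simp only at hq hk hh
  have hr := rr_ge M.code σ (top (σ, L, R))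
  -- the part of the tape off the head
  have hrest : top (σ, L, R) = (tp h0).val ∧ ∀ k : ℕ,
      (tp (h0 + 1 + k)).val = real (M.nS + 1) (restR (σ, L, R)) k ∧
      (tp (h0 - 1 - k)).val = real (M.nS + 1) (restL (σ, L, R)) k := by
    rw [mS_code] at hg
    rcases Nat.mod_two_eq_zero_or_one σ with hd | hd
    · simp only [top, restL, restR, hd, if_true, Nat.cast_zero, sub_zero] at hk hg ⊢
      refine ⟨?_, fun k => ⟨(hk k).1, ?_⟩⟩
      · have := (hk 0).2
        rw [real_head hg] at this
        simpa using this.symm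
      · rw [real_tail hg, ← (hk (k + 1)).2]
        congr 2; push_cast; ring
    · simp only [top, restL, restR, hd, one_ne_zero, if_false, Nat.cast_one] at hk hg ⊢
      refine ⟨?_, fun k => ⟨?_, (hk k).2⟩⟩
      · have := (hk 0).1
        rw [real_head hg] at this
        simpa using this.symm
      · rw [real_tail hg, ← (hk (k + 1)).1]
        congr 2; push_cast; ring
  obtain ⟨ht, hrest⟩ := hrest
  have hdl : dl M.code (σ / 2) (top (σ, L, R)) =
      ((M.δ q (tp h0)).1.val, (M.δ q (tp h0)).2.1.val, (M.δ q (tp h0)).2.2) := by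
    rw [hq, ht]; exact dl_code M q (tp h0)
  have hs2 : sg2 M.code σ (top (σ, L, R)) =
      2 * (M.δ q (tp h0)).1.val + cond (M.δ q (tp h0)).2.2 1 0 := by
    simp only [sg2, ble_false hg, cond_false, hdl]
  have he : ee M.code σ (top (σ, L, R)) = (M.δ q (tp h0)).2.1.val := by
    simp only [ee, ble_false hg, cond_false, hdl]
  have hlt := (M.δ q (tp h0)).2.1.isLt
  rw [mS_code] at hr
  simp only [TM.step, hh, Bool.false_eq_true, if_false, next, hs2, he]
  cases hD : (M.δ q (tp h0)).2.2
  · have e0 : (2 * (M.δ q (tp h0)).1.val + 0) % 2 = 0 := by omega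
    simp only [cond_false, e0, if_true, Bool.false_eq_true, if_false]
    refine ⟨by simp only; omega, fun k => ?_⟩
    simp only [e0, Nat.cast_zero, sub_zero]
    rw [real_cons_ge hr]
    constructor
    · cases k with
      | zero =>
        rw [real_cons_zero hlt]
        simp
      | succ k =>
        rw [real_cons_succ hlt, ← (hrest k).1, Function.update_of_ne (by push_cast; omega)]
        congr 2; push_cast; ring
    · rw [← (hrest k).2, Function.update_of_ne (by omega)]
  · have e0 : (2 * (M.δ q (tp h0)).1.val + 1) % 2 = 1 := by omega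
    simp only [cond_true, e0, one_ne_zero, if_true, if_false]
    refine ⟨by simp only; omega, fun k => ?_⟩
    simp only [e0, Nat.cast_one]
    rw [real_cons_ge hr]
    constructor
    · rw [← (hrest k).1, Function.update_of_ne (by omega)]
      congr 2; ring
    · cases k with
      | zero =>
        rw [real_cons_zero hlt]
        simp
      | succ k =>
        rw [real_cons_succ hlt, ← (hrest k).2, Function.update_of_ne (by push_cast; omega)]
        congr 2; push_cast; ring

theorem Rel.progress {M : TM} {c : M.Cfg} (hh : M.halt c.1 = false) (N : ℕ) :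
    ∀ μ : MCfg, (if μ.1 % 2 = 0 then μ.2.1 else μ.2.2).length ≤ N → Rel M μ c →
      ∃ j, Rel M ((next M.code)^[j] μ) (M.step c) := by
  induction N with
  | zero =>
    intro μ hl h
    refine ⟨1, h.real_step ?_ hh⟩
    have h0 : (if μ.1 % 2 = 0 then μ.2.1 else μ.2.2) = [] := List.length_eq_zero_iff.1 (by omega)
    have : top μ = 0 := by
      unfold top
      split_ifs at h0 ⊢ <;> rw [h0] <;> rfl
    rw [this, mS_code]; omega
  | succ N ih =>
    intro μ hl h
    rcases le_or_gt (mS M.code) (top μ) with hg | hg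
    · obtain ⟨j, hj⟩ := ih (next M.code μ) (by
        rw [next_garbage hg]
        by_cases h1 : μ.1 % 2 = 0
        · simp only [h1, if_true, List.length_tail] at hl ⊢; omega
        · simp only [h1, if_false, List.length_tail] at hl ⊢; omega) (h.garbage hg)
      exact ⟨j + 1, hj⟩
    · exact ⟨1, h.real_step hg hh⟩

def mu0 (cd : MC) (w : List ℕ) : MCfg := (2 * cd.2.2.1 + 1, [], w)

theorem rel_init (M : TM) (w : List (Fin (M.nS + 1))) :
    Rel M (mu0 M.code (w.map Fin.val)) (M.init w) := by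
  have e : (2 * M.start.val + 1) % 2 = 1 := by omega
  refine ⟨by simp only [mu0, TM.code, TM.init]; omega, fun k => ?_⟩
  simp only [mu0, TM.code, TM.init, e, Nat.cast_one]
  constructor
  · have h1 : (0 : ℤ) + 1 - 1 + k = k := by ring
    rw [h1, if_pos (Int.natCast_nonneg k), Int.toNat_natCast, real, List.filter_eq_self.2]
    · have : (0 : ℕ) = (0 : Fin (M.nS + 1)).val := rfl
      rw [this, List.getD_map]
    · intro a ha
      obtain ⟨b, _, rfl⟩ := List.mem_map.1 ha
      simpa using b.isLt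
  · rw [if_neg (by omega)]
    rfl

theorem valid_init (M : TM) (w : List (Fin (M.nS + 1))) :
    Valid M.code (mu0 M.code (w.map Fin.val)) := by
  refine ⟨?_, by simp [mu0], ?_⟩
  · have := M.start.isLt
    simp only [mu0, TM.code, nS2]; omega
  · intro x hx
    obtain ⟨b, _, rfl⟩ := List.mem_map.1 hx
    have := mS_le_KK M.code
    have := b.isLt
    rw [mS_code] at *
    omega

theorem halts_iff (M : TM) (w : List (Fin (M.nS + 1))) :
    M.Halts w ↔ ∃ k, hl M.code (((next M.code)^[k] (mu0 M.code (w.map Fin.val))).1 / 2) = true := by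
  constructor
  · rintro ⟨n, hn⟩
    have key : ∀ n, ∃ k, Rel M ((next M.code)^[k] (mu0 M.code (w.map Fin.val)))
        (M.step^[n] (M.init w)) := by
      intro n
      induction n with
      | zero => exact ⟨0, rel_init M w⟩
      | succ n ih =>
        obtain ⟨k, hk⟩ := ih
        rw [Function.iterate_succ_apply']
        cases hh : M.halt (M.step^[n] (M.init w)).1
        · obtain ⟨j, hj⟩ := Rel.progress hh _ _ le_rfl hk
          exact ⟨j + k, by rw [Function.iterate_add_apply]; exact hj⟩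
        · refine ⟨k, ?_⟩
          rw [step_halt M _ hh]
          exact hk
    obtain ⟨k, hk⟩ := key n
    exact ⟨k, by rw [hk.1, hl_code, hn]⟩
  · rintro ⟨k, hk⟩
    by_contra hne
    have hnh : ∀ n, M.halt (M.step^[n] (M.init w)).1 = false := by
      intro n
      cases hh : M.halt (M.step^[n] (M.init w)).1
      · rfl
      · exact absurd ⟨n, hh⟩ hne
    have key : ∀ k, ∃ n, Rel M ((next M.code)^[k] (mu0 M.code (w.map Fin.val)))
        (M.step^[n] (M.init w)) := by
      intro k
      induction k with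
      | zero => exact ⟨0, rel_init M w⟩
      | succ k ih =>
        obtain ⟨n, hn⟩ := ih
        rw [Function.iterate_succ_apply']
        rcases le_or_gt (mS M.code) (top ((next M.code)^[k] (mu0 M.code (w.map Fin.val))))
          with hg | hg
        · exact ⟨n, hn.garbage hg⟩
        · exact ⟨n + 1, by rw [Function.iterate_succ_apply']; exact hn.real_step hg (hnh n)⟩
    obtain ⟨n, hn⟩ := key k
    rw [hn.1, hl_code, hnh n] at hk
    exact absurd hk (by simp)

end Vale.Agent.P113
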