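import Vale.Agent.P113.Defs

/-! Uniqueness of classical solutions by the energy method. -/

namespace Vale.Agent.P113

open Set MeasureTheory

theorem HasCoordDeriv.at {i : Fin 3} {g g' : V → ℝ} (h : HasCoordDeriv i g g') (x : V) (s : ℝ) :
    HasDerivAt (fun r : ℝ => g (x + Pi.single i r)) (g' (x + Pi.single i s)) s := by
  have h1 := h (x + Pi.single i s)
  have h2 : HasDerivAt (fun r : ℝ => r - s) 1 s := (hasDerivAt_id s).sub_const s
  have h3 : HasDerivAt (fun h : ℝ => g (x + Pi.single i s + Pi.single i h))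
      (g' (x + Pi.single i s)) (s - s) := by simpa using h1
  have h4 := HasDerivAt.scomp (h := fun r : ℝ => r - s) s h3 h2
  simp only [smul_eq_mul, one_mul] at h4
  refine h4.congr_of_eventuallyEq (Filter.Eventually.of_forall fun r => ?_)
  simp only [Function.comp]
  congr 1
  rw [add_assoc, ← Pi.single_add]
  congr 2
  ring

theorem HasCoordDeriv.mul {i : Fin 3} {g g' k k' : V → ℝ} (hg : HasCoordDeriv i g g')
    (hk : HasCoordDeriv i k k') :
    HasCoordDeriv i (fun x => g x * k x) (fun x => g' x * k x + g x * k' x) := by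
  intro x
  have := (hg x).fun_mul (hk x)
  simpa using this

theorem HasCoordDeriv.add {i : Fin 3} {g g' k k' : V → ℝ} (hg : HasCoordDeriv i g g')
    (hk : HasCoordDeriv i k k') :
    HasCoordDeriv i (fun x => g x + k x) (fun x => g' x + k' x) := by
  intro x
  exact (hg x).add (hk x)

theorem HasCoordDeriv.sub {i : Fin 3} {g g' k k' : V → ℝ} (hg : HasCoordDeriv i g g')
    (hk : HasCoordDeriv i k k') :
    HasCoordDeriv i (fun x => g x - k x) (fun x => g' x - k' x) := by
  intro x
  exact (hg x).sub (hk x)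

theorem HasCoordDeriv.const_mul {i : Fin 3} {g g' : V → ℝ} (c : ℝ) (hg : HasCoordDeriv i g g') :
    HasCoordDeriv i (fun x => c * g x) (fun x => c * g' x) := by
  intro x
  exact (hg x).const_mul c

theorem HasCoordDeriv.sum {i : Fin 3} {g g' : Fin 3 → V → ℝ}
    (hg : ∀ k, HasCoordDeriv i (g k) (g' k)) :
    HasCoordDeriv i (fun x => ∑ k, g k x) (fun x => ∑ k, g' k x) := by
  intro x
  exact HasDerivAt.fun_sum (u := Finset.univ) (fun k _ => hg k x)

theorem insertNth_eq (i : Fin 3) (s : ℝ) (y : Fin 2 → ℝ) :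
    (Fin.insertNth i s y : V) = (Fin.insertNth i (0 : ℝ) y : V) + Pi.single i s := by
  funext j
  rcases Fin.eq_self_or_eq_succAbove i j with rfl | ⟨k, rfl⟩
  · simp
  · simp

theorem integral_coordDeriv_eq_zero (i : Fin 3) (g g' : V → ℝ) (h : HasCoordDeriv i g g')
    (hc : Continuous g') (hp : ∀ x, g (x + Pi.single i 1) = g x) :
    ∫ x in Icc (0 : V) 1, g' x = 0 := by
  set e : ℝ × (Fin 2 → ℝ) ≃ᵐ V := (MeasurableEquiv.piFinSuccAbove (fun _ => ℝ) i).symm
  have hem : MeasurePreserving e :=
    (volume_preserving_piFinSuccAbove (fun _ : Fin 3 => ℝ) i).symm _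
  have heπ : (e ⁻¹' Icc 0 1) = Icc (0 : ℝ) 1 ×ˢ Icc (0 : Fin 2 → ℝ) 1 :=
    ((Fin.insertNthOrderIso (fun _ => ℝ) i).preimage_Icc _ _).trans (Icc_prod_eq _ _)
  have he : ∀ z : ℝ × (Fin 2 → ℝ), e z = (Fin.insertNth i z.1 z.2 : V) := fun z => rfl
  have hce : Continuous e := by
    have : (e : ℝ × (Fin 2 → ℝ) → V) = fun z => (Fin.insertNth i z.1 z.2 : V) := funext he
    rw [this]
    exact Continuous.finInsertNth (A := fun _ => ℝ) i continuous_fst continuous_snd
  rw [← hem.setIntegral_preimage_emb e.measurableEmbedding, heπ, Measure.volume_eq_prod]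
  have hint : IntegrableOn (fun z => g' (e z)) (Icc (0 : ℝ) 1 ×ˢ Icc (0 : Fin 2 → ℝ) 1)
      (volume.prod volume) := by
    rw [← Measure.volume_eq_prod]
    exact (hc.comp hce).continuousOn.integrableOn_compact (isCompact_Icc.prod isCompact_Icc)
  rw [← Measure.prod_restrict, integral_prod_symm _ (by rwa [Measure.prod_restrict])]
  have : ∀ y : Fin 2 → ℝ, ∫ s in Icc (0 : ℝ) 1, g' (e (s, y)) = 0 := by
    intro y
    rw [integral_Icc_eq_integral_Ioc, ← intervalIntegral.integral_of_le zero_le_one]
    have hd : ∀ s ∈ uIcc (0 : ℝ) 1, HasDerivAt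
        (fun r : ℝ => g ((Fin.insertNth i (0 : ℝ) y : V) + Pi.single i r)) (g' (e (s, y))) s := by
      intro s _
      rw [he, insertNth_eq i s y]
      exact h.at _ s
    rw [intervalIntegral.integral_eq_sub_of_hasDerivAt hd
      ((hc.comp (hce.comp (Continuous.prodMk_left y))).intervalIntegrable _ _)]
    rw [hp]; simp
  simp [this]

theorem Periodic3.single {E : Type} {g : V → E} (h : Periodic3 g) (i : Fin 3) (x : V) :
    g (x + Pi.single i 1) = g x := by
  have := h x (Pi.single i 1)
  rw [← this]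
  congr 1
  funext j
  by_cases hj : j = i
  · subst hj; simp
  · simp [Pi.single_eq_of_ne hj]

theorem ContOn.slice {T : ℝ} {g : ℝ → V → ℝ} (h : ContOn T g) {t : ℝ} (ht : t ∈ Icc 0 T) :
    Continuous (g t) := by
  have : ContinuousOn (fun x : V => g t x) univ :=
    ContinuousOn.comp (g := fun z : ℝ × V => g z.1 z.2) (f := fun x : V => (t, x)) h
      (Continuous.prodMk_right t).continuousOn (fun x _ => ⟨ht, mem_univ _⟩)
  exact continuousOn_univ.1 this

theorem ContOn.bdd {T : ℝ} {g : ℝ → V → ℝ} (h : ContOn T g) :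
    ∃ C, 0 ≤ C ∧ ∀ t ∈ Icc 0 T, ∀ x ∈ Icc (0 : V) 1, |g t x| ≤ C := by
  have hK : IsCompact (Icc (0 : ℝ) T ×ˢ Icc (0 : V) 1) := isCompact_Icc.prod isCompact_Icc
  obtain ⟨C, hC⟩ := hK.exists_bound_of_continuousOn
    (h.mono (prod_mono subset_rfl (subset_univ _)))
  exact ⟨max C 0, le_max_right _ _, fun t ht x hx =>
    (hC (t, x) ⟨ht, hx⟩).trans (le_max_left _ _)⟩

/-- A periodic derivative: the coordinate derivative of a periodic function is periodic. -/
theorem HasCoordDeriv.per {i j : Fin 3} {g g' : V → ℝ} (h : HasCoordDeriv i g g')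
    (hp : ∀ x, g (x + Pi.single j 1) = g x) (x : V) : g' (x + Pi.single j 1) = g' x := by
  have h1 := h (x + Pi.single j 1)
  have h2 := h x
  have : (fun r : ℝ => g (x + Pi.single j 1 + Pi.single i r)) =
      fun r : ℝ => g (x + Pi.single i r) := by
    funext r
    rw [add_right_comm, hp]
  rw [this] at h1
  exact h1.unique h2

theorem abs_quad_le (a : Fin 3 → ℝ) (m : Fin 3 → Fin 3 → ℝ) (C : ℝ) (hC : 0 ≤ C)
    (hm : ∀ i j, |m i j| ≤ C) : - ∑ i, a i * ∑ j, a j * m i j ≤ 3 * C * ∑ i, a i ^ 2 := by
  have h : ∀ i j, - (a i * (a j * m i j)) ≤ C * ((a i ^ 2 + a j ^ 2) / 2) := by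
    intro i j
    have h1 : |a i * (a j * m i j)| ≤ C * ((a i ^ 2 + a j ^ 2) / 2) := by
      rw [abs_mul, abs_mul]
      have h2 : |a i| * |a j| ≤ (a i ^ 2 + a j ^ 2) / 2 := by
        nlinarith [sq_nonneg (|a i| - |a j|), sq_abs (a i), sq_abs (a j)]
      calc |a i| * (|a j| * |m i j|) = (|a i| * |a j|) * |m i j| := by ring
        _ ≤ ((a i ^ 2 + a j ^ 2) / 2) * C :=
          mul_le_mul h2 (hm i j) (abs_nonneg _) (by positivity)
        _ = _ := by ring
    exact (neg_le_abs _).trans h1
  simp only [Fin.sum_univ_three]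
  have h00 := h 0 0; have h01 := h 0 1; have h02 := h 0 2
  have h10 := h 1 0; have h11 := h 1 1; have h12 := h 1 2
  have h20 := h 2 0; have h21 := h 2 1; have h22 := h 2 2
  nlinarith

theorem eq_const_of_coordDeriv_zero (g : V → ℝ) (h : ∀ i, HasCoordDeriv i g (fun _ => 0))
    (x : V) : g x = g 0 := by
  have key : ∀ (i : Fin 3) (y : V) (s : ℝ), g (y + Pi.single i s) = g y := by
    intro i y s
    have hd : ∀ r, HasDerivAt (fun r : ℝ => g (y + Pi.single i r)) 0 r := fun r => (h i).at y r
    have := is_const_of_deriv_eq_zero (f := fun r : ℝ => g (y + Pi.single i r))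
      (fun r => (hd r).differentiableAt) (fun r => (hd r).deriv) s 0
    simpa using this
  have hx : x = (0 : V) + Pi.single 0 (x 0) + Pi.single 1 (x 1) + Pi.single 2 (x 2) := by
    funext j
    fin_cases j <;> simp
  rw [hx, key, key, key]

theorem classical_unique {ν : ℝ} (hν : 0 ≤ ν) {f : ℝ → V → V} {T : ℝ} (hT : 0 < T)
    {u v : ℝ → V → V} {p q : ℝ → V → ℝ} (hu : IsClassical ν f T u p)
    (hv : IsClassical ν f T v q) : ∀ t ∈ Icc 0 T, v t = u t ∧ q t = p t := by
  obtain ⟨ut, ux, uxx, px, uper, hut, hux, huxx, hpx, cu, cut, cux, cuxx, cp, cpx, ueq, udiv,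
    u0, pm⟩ := hu
  obtain ⟨vt, vx, vxx, qx, vper, hvt, hvx, hvxx, hqx, cv, cvt, cvx, cvxx, cq, cqx, veq, vdiv,
    v0, qm⟩ := hv
  set w : Fin 3 → ℝ → V → ℝ := fun i t x => v t x i - u t x i with hw
  set wt : Fin 3 → ℝ → V → ℝ := fun i t x => vt i t x - ut i t x with hwt
  set wx : Fin 3 → Fin 3 → ℝ → V → ℝ := fun i j t x => vx i j t x - ux i j t x with hwx
  set wxx : Fin 3 → Fin 3 → ℝ → V → ℝ := fun i j t x => vxx i j j t x - uxx i j j t x with hwxx
  have cw : ∀ i, ContOn T (w i) := fun i => (cv i).sub (cu i)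
  have cwt : ∀ i, ContOn T (wt i) := fun i => (cvt i).sub (cut i)
  set E : ℝ → ℝ := fun t => ∫ x in Icc (0 : V) 1, ∑ i, w i t x ^ 2 with hE
  set G : ℝ → ℝ := fun t => ∫ x in Icc (0 : V) 1, ∑ i, 2 * w i t x * wt i t x with hG
  have cE : ContOn T (fun t x => ∑ i, w i t x ^ 2) :=
    continuousOn_finsetSum _ fun i _ => (cw i).pow 2
  have cG : ContOn T (fun t x => ∑ i, 2 * w i t x * wt i t x) :=
    continuousOn_finsetSum _ fun i _ => (continuousOn_const.mul (cw i)).mul (cwt i)
  have hvol : (volume : Measure V) (Icc (0 : V) 1) < ⊤ := isCompact_Icc.measure_lt_top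
  have : IsFiniteMeasure ((volume : Measure V).restrict (Icc (0 : V) 1)) :=
    ⟨by simpa using hvol⟩
  obtain ⟨C, hC0, hC⟩ : ∃ C, 0 ≤ C ∧ ∀ i j, ∀ t ∈ Icc 0 T, ∀ x ∈ Icc (0 : V) 1,
      |ux i j t x| ≤ C := by
    choose C hC0 hC using fun i j => (cux i j).bdd
    refine ⟨∑ i, ∑ j, C i j, Finset.sum_nonneg fun i _ => Finset.sum_nonneg fun j _ => hC0 i j,
      fun i j t ht x hx => (hC i j t ht x hx).trans ?_⟩
    calc C i j ≤ ∑ j, C i j :=
          Finset.single_le_sum (f := fun j => C i j) (fun j _ => hC0 i j) (Finset.mem_univ j)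
      _ ≤ _ := Finset.single_le_sum (f := fun i => ∑ j, C i j)
          (fun i _ => Finset.sum_nonneg fun j _ => hC0 i j) (Finset.mem_univ i)
  -- energy inequality
  have hGE : ∀ t ∈ Icc 0 T, G t ≤ 6 * C * E t := by
    intro t ht
    have dw : ∀ i j, HasCoordDeriv j (w i t) (wx i j t) := fun i j =>
      (hvx i j t ht).sub (hux i j t ht)
    have dwx : ∀ i j, HasCoordDeriv j (wx i j t) (wxx i j t) := fun i j =>
      (hvxx i j j t ht).sub (huxx i j j t ht)
    set π : V → ℝ := fun x => q t x - p t x with hπ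
    set πx : Fin 3 → V → ℝ := fun j x => qx j t x - px j t x with hπx
    have dπ : ∀ j, HasCoordDeriv j π (πx j) := fun j => (hqx j t ht).sub (hpx j t ht)
    set F : Fin 3 → V → ℝ := fun j x =>
      2 * ν * (∑ k, w k t x * wx k j t x) - (∑ k, w k t x * w k t x) * v t x j
        - 2 * (π x * w j t x) with hF
    set F' : Fin 3 → V → ℝ := fun j x =>
      2 * ν * (∑ k, (wx k j t x * wx k j t x + w k t x * wxx k j t x))
        - ((∑ k, (wx k j t x * w k t x + w k t x * wx k j t x)) * v t x j
          + (∑ k, w k t x * w k t x) * vx j j t x)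
        - 2 * (πx j x * w j t x + π x * wx j j t x) with hF'
    have dF : ∀ j, HasCoordDeriv j (F j) (F' j) := fun j =>
      ((HasCoordDeriv.const_mul (2 * ν) (HasCoordDeriv.sum fun k => (dw k j).mul (dwx k j))).sub
        ((HasCoordDeriv.sum fun k => (dw k j).mul (dw k j)).mul (hvx j j t ht))).sub
        (HasCoordDeriv.const_mul 2 ((dπ j).mul (dw j j)))
    have sw : ∀ i, Continuous (w i t) := fun i => (cw i).slice ht
    have swx : ∀ i j, Continuous (wx i j t) := fun i j =>
      ((cvx i j).slice ht).sub ((cux i j).slice ht)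
    have swxx : ∀ i j, Continuous (wxx i j t) := fun i j =>
      ((cvxx i j j).slice ht).sub ((cuxx i j j).slice ht)
    have sπ : Continuous π := (cq.slice ht).sub (cp.slice ht)
    have sπx : ∀ j, Continuous (πx j) := fun j => ((cqx j).slice ht).sub ((cpx j).slice ht)
    have sv : ∀ j, Continuous (fun x => v t x j) := fun j => (cv j).slice ht
    have svx : ∀ i j, Continuous (vx i j t) := fun i j => (cvx i j).slice ht
    have cF' : ∀ j, Continuous (F' j) := fun j => by
      simp only [hF']
      refine ((continuous_const.mul (continuous_finsetSum _ fun k _ => ?_)).sub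
        (((continuous_finsetSum _ fun k _ => ?_).mul (sv j)).add
          ((continuous_finsetSum _ fun k _ => ?_).mul (svx j j)))).sub
        (continuous_const.mul (((sπx j).mul (sw j)).add (sπ.mul (swx j j))))
      · exact ((swx k j).mul (swx k j)).add ((sw k).mul (swxx k j))
      · exact ((swx k j).mul (sw k)).add ((sw k).mul (swx k j))
      · exact (sw k).mul (sw k)
    have pw : ∀ i j x, w i t (x + Pi.single j 1) = w i t x := fun i j x => by
      simp only [hw, (uper t ht).1.single, (vper t ht).1.single]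
    have pF : ∀ j x, F j (x + Pi.single j 1) = F j x := fun j x => by
      have h1 : ∀ k, wx k j t (x + Pi.single j 1) = wx k j t x := fun k =>
        (dw k j).per (pw k j) x
      simp only [hF, hπ, pw, h1, (vper t ht).1.single, (uper t ht).2.single,
        (vper t ht).2.single]
    have iF : ∀ j, ∫ x in Icc (0 : V) 1, F' j x = 0 := fun j =>
      integral_coordDeriv_eq_zero j (F j) (F' j) (dF j) (cF' j) (pF j)
    have hpt : ∀ x ∈ Icc (0 : V) 1, ∑ i, 2 * w i t x * wt i t x ≤
        ∑ j, F' j x + 6 * C * ∑ i, w i t x ^ 2 := by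
      intro x hx
      have e1 : ∀ i, wt i t x = - (∑ j, v t x j * wx i j t x) - (∑ j, w j t x * ux i j t x)
          - πx i x + ν * ∑ j, wxx i j t x := by
        intro i
        have a1 := ueq i t ht x
        have a2 := veq i t ht x
        simp only [hwt, hw, hwx, hwxx, hπx, Fin.sum_univ_three] at a1 a2 ⊢
        linarith
      have d1 := udiv t ht x
      have d2 := vdiv t ht x
      have d3 : ∑ j, wx j j t x = 0 := by
        simp only [hwx, Finset.sum_sub_distrib, d1, d2, sub_zero]
      have q1 := abs_quad_le (fun i => w i t x) (fun i j => ux i j t x) C hC0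
        (fun i j => hC i j t ht x hx)
      have q2 : 0 ≤ ν * ∑ j, ∑ k, wx k j t x * wx k j t x :=
        mul_nonneg hν (Finset.sum_nonneg fun j _ => Finset.sum_nonneg fun k _ => mul_self_nonneg _)
      have key : ∑ i, 2 * w i t x * wt i t x = ∑ j, F' j x
          - 2 * (ν * ∑ j, ∑ k, wx k j t x * wx k j t x)
          + (∑ k, w k t x * w k t x) * (∑ j, vx j j t x) + 2 * π x * (∑ j, wx j j t x)
          - 2 * ∑ i, w i t x * ∑ j, w j t x * ux i j t x := by
        simp only [e1, hF', Fin.sum_univ_three]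
        ring
      rw [key, d2, d3]
      linarith
    have i1 : ∀ j, IntegrableOn (F' j) (Icc (0 : V) 1) := fun j =>
      (cF' j).continuousOn.integrableOn_compact isCompact_Icc
    have i2 : IntegrableOn (fun x => ∑ i, w i t x ^ 2) (Icc (0 : V) 1) :=
      (cE.slice ht).continuousOn.integrableOn_compact isCompact_Icc
    have i3 : IntegrableOn (fun x => ∑ i, 2 * w i t x * wt i t x) (Icc (0 : V) 1) :=
      (cG.slice ht).continuousOn.integrableOn_compact isCompact_Icc
    have i4 : IntegrableOn (fun x => ∑ j, F' j x) (Icc (0 : V) 1) :=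
      integrable_finsetSum _ fun j _ => i1 j
    calc G t ≤ ∫ x in Icc (0 : V) 1, (∑ j, F' j x + 6 * C * ∑ i, w i t x ^ 2) :=
          setIntegral_mono_on i3 (i4.add (i2.const_mul _)) measurableSet_Icc hpt
      _ = 6 * C * E t := by
          rw [integral_add i4 (i2.const_mul _), integral_finsetSum _ fun j _ => i1 j,
            integral_const_mul]
          simp [iF, hE]
  -- continuity and differentiability of the energy
  have contE : ContinuousOn E (Icc 0 T) := by
    obtain ⟨B, -, hB⟩ := cE.bdd
    refine continuousOn_of_dominated (bound := fun _ => B)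
      (fun t ht => (cE.slice ht).aestronglyMeasurable) (fun t ht => ?_) (integrable_const B) ?_
    · exact (ae_restrict_iff' measurableSet_Icc).2 (Filter.Eventually.of_forall fun x hx =>
        hB t ht x hx)
    · refine Filter.Eventually.of_forall fun x => ?_
      exact ContinuousOn.comp (g := fun z : ℝ × V => ∑ i, w i z.1 z.2 ^ 2)
        (f := fun t : ℝ => (t, x)) cE (Continuous.prodMk_left x).continuousOn
        (fun t ht => ⟨ht, mem_univ _⟩)
  have derE : ∀ t ∈ Ioo 0 T, HasDerivAt E (G t) t := by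
    intro t ht
    obtain ⟨B, -, hB⟩ := cG.bdd
    have ht' : t ∈ Icc 0 T := Ioo_subset_Icc_self ht
    refine (hasDerivAt_integral_of_dominated_loc_of_deriv_le (s := Ioo 0 T)
      (F := fun t x => ∑ i, w i t x ^ 2) (F' := fun t x => ∑ i, 2 * w i t x * wt i t x)
      (bound := fun _ => B) (Ioo_mem_nhds ht.1 ht.2) ?_
      ((cE.slice ht').continuousOn.integrableOn_compact isCompact_Icc)
      (cG.slice ht').aestronglyMeasurable ?_ (integrable_const B) ?_).2
    · filter_upwards [Ioo_mem_nhds ht.1 ht.2] with s hs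
      exact (cE.slice (Ioo_subset_Icc_self hs)).aestronglyMeasurable
    · exact (ae_restrict_iff' measurableSet_Icc).2 (Filter.Eventually.of_forall fun x hx s hs =>
        hB s (Ioo_subset_Icc_self hs) x hx)
    · refine Filter.Eventually.of_forall fun x s hs => ?_
      refine HasDerivAt.fun_sum (u := Finset.univ) fun i _ => ?_
      have hs' := Ioo_subset_Icc_self hs
      have h1 : HasDerivAt (fun s => w i s x) (wt i s x) s :=
        ((hvt i s hs' x).sub (hut i s hs' x)).hasDerivAt (Icc_mem_nhds hs.1 hs.2)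
      have := h1.fun_pow 2
      simpa [mul_assoc] using this
  have E0 : E 0 = 0 := by simp [hE, hw, u0, v0]
  have Enn : ∀ t, 0 ≤ E t := fun t =>
    integral_nonneg fun x => Finset.sum_nonneg fun i _ => sq_nonneg _
  have Ezero : ∀ t ∈ Icc 0 T, E t = 0 := by
    have hanti : AntitoneOn (fun t => Real.exp (-(6 * C) * t) * E t) (Icc 0 T) := by
      have hd : ∀ t ∈ Ioo 0 T, HasDerivAt (fun t => Real.exp (-(6 * C) * t) * E t)
          (Real.exp (-(6 * C) * t) * (-(6 * C)) * E t + Real.exp (-(6 * C) * t) * G t) t := by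
        intro t ht
        have h1 : HasDerivAt (fun t => Real.exp (-(6 * C) * t))
            (Real.exp (-(6 * C) * t) * (-(6 * C))) t := by
          simpa using ((hasDerivAt_id t).const_mul (-(6 * C))).exp
        exact h1.mul (derE t ht)
      refine antitoneOn_of_deriv_nonpos (convex_Icc 0 T)
        ((by fun_prop : Continuous fun t => Real.exp (-(6 * C) * t)).continuousOn.mul contE) ?_ ?_
      · rw [interior_Icc]
        exact fun t ht => (hd t ht).differentiableAt.differentiableWithinAt
      · rw [interior_Icc]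
        intro t ht
        rw [(hd t ht).deriv]
        have := hGE t (Ioo_subset_Icc_self ht)
        have h2 := Real.exp_pos (-(6 * C) * t)
        nlinarith
    intro t ht
    have h1 := hanti (left_mem_Icc.2 hT.le) ht ht.1
    simp only [E0, mul_zero] at h1
    have h2 := Real.exp_pos (-(6 * C) * t)
    have h3 := Enn t
    nlinarith
  -- pointwise vanishing
  have wzero : ∀ t ∈ Icc 0 T, ∀ i x, w i t x = 0 := by
    intro t ht
    have hcont := cE.slice ht
    have hae : (fun x => ∑ i, w i t x ^ 2) =ᵐ[volume.restrict (Icc (0 : V) 1)] 0 :=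
      (setIntegral_eq_zero_iff_of_nonneg_ae
        (Filter.Eventually.of_forall fun x => Finset.sum_nonneg fun i _ => sq_nonneg _)
        (hcont.continuousOn.integrableOn_compact isCompact_Icc)).1 (Ezero t ht)
    have hclos : Icc (0 : V) 1 ⊆ closure (interior (Icc (0 : V) 1)) := by
      have : Icc (0 : V) 1 = Set.pi univ fun _ => Icc (0 : ℝ) 1 := by
        rw [← Set.pi_univ_Icc]; rfl
      rw [this, interior_pi_set finite_univ, closure_pi_set]
      simp
    have hon : EqOn (fun x => ∑ i, w i t x ^ 2) 0 (Icc (0 : V) 1) :=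
      Measure.eqOn_of_ae_eq hae hcont.continuousOn continuousOn_const hclos
    intro i x
    have hx : (fun j => Int.fract (x j)) ∈ Icc (0 : V) 1 :=
      ⟨fun j => Int.fract_nonneg _, fun j => (Int.fract_lt_one _).le⟩
    have h0 := hon hx
    simp only [Pi.zero_apply] at h0
    have h1 : w i t (fun j => Int.fract (x j)) = 0 := by
      have := (Finset.sum_eq_zero_iff_of_nonneg (fun i _ => sq_nonneg _)).1 h0 i (Finset.mem_univ i)
      exact pow_eq_zero_iff (two_ne_zero) |>.1 this
    have hxx : x = fun j => Int.fract (x j) + ((⌊x j⌋ : ℤ) : ℝ) := by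
      funext j; simp
    rw [hxx]
    simp only [hw] at h1 ⊢
    rw [(uper t ht).1 _ (fun j => ⌊x j⌋), (vper t ht).1 _ (fun j => ⌊x j⌋)]
    exact h1
  have huv : ∀ t ∈ Icc 0 T, v t = u t := fun t ht => by
    funext x i
    exact sub_eq_zero.1 (wzero t ht i x)
  intro t ht
  refine ⟨huv t ht, ?_⟩
  have e1 : ∀ i x, vt i t x = ut i t x := by
    intro i x
    have h1 : HasDerivWithinAt (fun s => u s x i) (vt i t x) (Icc 0 T) t :=
      (hvt i t ht x).congr (fun s hs => by rw [huv s hs]) (by rw [huv t ht])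
    exact (uniqueDiffOn_Icc hT t ht).eq_deriv _ h1 (hut i t ht x)
  have e2 : ∀ i j, vx i j t = ux i j t := by
    intro i j
    funext x
    have h1 := hvx i j t ht x
    rw [huv t ht] at h1
    exact h1.unique (hux i j t ht x)
  have e3 : ∀ i j k, vxx i j k t = uxx i j k t := by
    intro i j k
    funext x
    have h1 := hvxx i j k t ht x
    rw [e2] at h1
    exact h1.unique (huxx i j k t ht x)
  have e4 : ∀ i x, qx i t x = px i t x := by
    intro i x
    have a1 := ueq i t ht x
    have a2 := veq i t ht x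
    simp only [e1, e2, e3, huv t ht] at a2
    linarith
  have hconst := eq_const_of_coordDeriv_zero (fun x => q t x - p t x) (fun i => by
    have := (hqx i t ht).sub (hpx i t ht)
    simpa [e4] using this)
  have hint : ∫ x in Icc (0 : V) 1, (q t x - p t x) = 0 := by
    rw [integral_sub ((cq.slice ht).continuousOn.integrableOn_compact isCompact_Icc)
      ((cp.slice ht).continuousOn.integrableOn_compact isCompact_Icc), qm t ht, pm t ht, sub_zero]
  simp only [hconst] at hint
  have hvol1 : (volume : Measure V).real (Icc (0 : V) 1) = 1 := by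
    simp [Measure.real, Real.volume_Icc_pi]
  rw [setIntegral_const, hvol1, one_smul] at hint
  funext x
  have := hconst x
  rw [hint] at this
  exact sub_eq_zero.1 this

end Vale.Agent.P113
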