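import Vale.Agent.P113.Flow
import Vale.Agent.P113.Uniq

/-! Assembly of the construction. -/

namespace Vale.Agent.P113

open Filter Topology Set
open scoped ContDiff

theorem vel_contDiff (M : TM) (w : List ℕ) (i : Fin 3) : ContDiff ℝ ∞ (vel M.code w i) :=
  UU_contDiff _ (good_GP M i)

theorem IP_congr (cd : MC) (w : List ℕ) (i : Fin 3) {p q : P4} (h : p 0 = q 0) :
    evP (IP cd w i) p = evP (IP cd w i) q := by
  obtain ⟨a0, a1, a2⟩ := evP_IP cd w p
  obtain ⟨b0, b1, b2⟩ := evP_IP cd w q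
  rw [h] at a0 a1
  fin_cases i
  · exact a0.trans b0.symm
  · exact a1.trans b1.symm
  · exact a2.trans b2.symm

theorem IP_zero (cd : MC) (w : List ℕ) (i : Fin 3) {p : P4} (h : 1 / 2 < p 0) :
    evP (IP cd w i) p = 0 := by
  obtain ⟨a0, a1, a2⟩ := evP_IP cd w p
  rw [beta_zero_gt (by push_cast; linarith), zero_mul] at a0 a1
  fin_cases i
  · exact a0
  · exact a1
  · exact a2

theorem fr_add_int (p : P4) (k : Fin 4 → ℤ) : fr (p + fun j => (k j : ℝ)) = fr p := by
  funext j
  simp [fr]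

theorem vel_space (cd : MC) (w : List ℕ) (i : Fin 3) (k : Fin 3 → ℤ) (q : P4) :
    vel cd w i (q + fun j => ((Fin.cons 0 k : Fin 4 → ℤ) j : ℝ)) = vel cd w i q := by
  simp only [vel, UU]
  rw [fr_add_int, IP_congr cd w i (q := q) (by simp)]

theorem cons_add_space (t : ℝ) (x : V) (k : Fin 3 → ℤ) :
    (Fin.cons t (fun j => x j + (k j : ℝ)) : P4) =
      Fin.cons t x + fun j => ((Fin.cons 0 k : Fin 4 → ℤ) j : ℝ) := by
  funext j
  refine Fin.cases ?_ (fun j => ?_) j <;> simp

theorem cons_add_time (t : ℝ) (x : V) :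
    (Fin.cons (t + 1) x : P4) =
      Fin.cons t x + fun j => ((Fin.cons 1 (0 : Fin 3 → ℤ) : Fin 4 → ℤ) j : ℝ) := by
  funext j
  refine Fin.cases ?_ (fun j => ?_) j <;> simp

theorem late {t : ℝ} (ht : 1 ≤ t) (x : V) : ∀ᶠ q : P4 in 𝓝 (Fin.cons t x), 1 / 2 < q 0 :=
  continuousAt_const.eventually_lt (continuous_apply 0).continuousAt
    (by simp only [Fin.cons_zero]; linarith)

noncomputable def force (ν : ℝ) (cd : MC) (w : List ℕ) (t : ℝ) (x : V) : V :=
  fun i => FF ν (vel cd w i) (Fin.cons t x)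

noncomputable def velo (cd : MC) (w : List ℕ) (t : ℝ) (x : V) : V :=
  fun i => vel cd w i (Fin.cons t x)

theorem force_contDiff (ν : ℝ) (M : TM) (w : List ℕ) :
    ContDiff ℝ ∞ fun z : ℝ × V => force ν M.code w z.1 z.2 :=
  contDiff_pi.2 fun i => (FF_contDiff ν (vel_contDiff M w i)).comp contDiff_cons

theorem velo_contDiff (M : TM) (w : List ℕ) :
    ContDiff ℝ ∞ fun z : ℝ × V => velo M.code w z.1 z.2 :=
  contDiff_pi.2 fun i => (vel_contDiff M w i).comp contDiff_cons

theorem force_space (ν : ℝ) (cd : MC) (w : List ℕ) (t : ℝ) : Periodic3 (force ν cd w t) := by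
  intro x k
  funext i
  simp only [force]
  rw [cons_add_space]
  exact FF_shift ν (Eventually.of_forall fun q => vel_space cd w i k q)

theorem velo_space (cd : MC) (w : List ℕ) (t : ℝ) : Periodic3 (velo cd w t) := by
  intro x k
  funext i
  simp only [velo]
  rw [cons_add_space, vel_space]

theorem force_time (ν : ℝ) (cd : MC) (w : List ℕ) {t : ℝ} (ht : 1 ≤ t) :
    force ν cd w (t + 1) = force ν cd w t := by
  funext x i
  simp only [force]
  rw [cons_add_time]
  refine FF_shift ν ?_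
  filter_upwards [late ht x] with q hq
  simp only [vel, UU, fr_add_int]
  rw [IP_zero cd w i hq, IP_zero cd w i (by simp; linarith)]

theorem force_indep (ν : ℝ) (cd : MC) (w w' : List ℕ) {t : ℝ} (ht : 1 ≤ t) :
    force ν cd w t = force ν cd w' t := by
  funext x i
  simp only [force]
  rw [← add_zero (Fin.cons t x : P4)]
  nth_rewrite 2 [add_zero]
  refine FF_shift ν ?_
  filter_upwards [late ht x] with q hq
  simp only [vel, UU, add_zero]
  rw [IP_zero cd w i hq, IP_zero cd w' i hq]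

theorem velo_slot (cd : MC) (w : List ℕ) (n : ℕ) (t : ℝ) (h1 : (n : ℝ) ≤ 8 * t)
    (h2 : 8 * t ≤ n + 1) (x : V) :
    velo cd w t x = Pi.single (axs n) (beta n t * gs cd w n x) := vel_slot cd w n t h1 h2 x

theorem velo_classical (ν : ℝ) (M : TM) (w : List ℕ) (T : ℝ) :
    IsClassical ν (force ν M.code w) T (velo M.code w) (fun _ _ => 0) := by
  refine shear_classical ν (vel M.code w) (vel_contDiff M w) (velo_space M.code w) ?_ ?_ T
  · intro i x
    have := congrFun (velo_slot M.code w 0 0 (by simp) (by simp) x) i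
    rw [beta_zero_lt (by simp), zero_mul, Pi.single_zero] at this
    exact this
  · intro t ht
    have h1 : ((⌊8 * t⌋₊ : ℕ) : ℝ) ≤ 8 * t := Nat.floor_le (by linarith)
    have h2 : 8 * t ≤ (⌊8 * t⌋₊ : ℕ) + 1 := (Nat.lt_floor_add_one _).le
    refine ⟨axs ⌊8 * t⌋₊, fun i hi x => ?_, fun x s => ?_⟩
    · have := congrFun (velo_slot M.code w _ t h1 h2 x) i
      rw [Pi.single_eq_of_ne hi] at this
      exact this
    · have a := congrFun (velo_slot M.code w _ t h1 h2 x) (axs ⌊8 * t⌋₊)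
      have b := congrFun (velo_slot M.code w _ t h1 h2 (x + Pi.single (axs ⌊8 * t⌋₊) s))
        (axs ⌊8 * t⌋₊)
      rw [gs_indep] at b
      exact b.trans a.symm

def target : Set (Fin 3 → AddCircle (1 : ℝ)) :=
  {y | y 2 ∈ (fun z : ℝ => (z : AddCircle (1 : ℝ))) '' Ioo (3 / 4) 1}

theorem target_open : IsOpen target := by
  have h : IsOpen ((fun z : ℝ => (z : AddCircle (1 : ℝ))) '' Ioo (3 / 4) 1) :=
    QuotientAddGroup.isOpenMap_coe _ isOpen_Ioo
  exact h.preimage (continuous_apply (2 : Fin 3))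

theorem detect (M : TM) (w : List (Fin (M.nS + 1))) (X : ℝ → V)
    (hX : IsTrajectory (velo M.code (w.map Fin.val)) (vec 0 0 0) X) :
    (∃ t, 0 ≤ t ∧ toTorus (X t) ∈ target) ↔ M.Halts w := by
  constructor
  · rintro ⟨t, ht, z, hz, hzX⟩
    by_contra hne
    obtain ⟨n, θ, h0, h1, hθ⟩ := traj_between (gs_indep M.code _) (velo_slot M.code _) hX t ht
    have a := PP_low M w hne n
    have b := PP_low M w hne (n + 1)
    have c : X t 2 = (1 - θ) * PP M.code (w.map Fin.val) n 2 +
      θ * PP M.code (w.map Fin.val) (n + 1) 2 := hθ 2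
    have d1 : 1 / 4 ≤ X t 2 := by rw [c]; nlinarith [a.1, b.1]
    have d2 : X t 2 ≤ 3 / 4 := by rw [c]; nlinarith [a.2, b.2]
    have : z = X t 2 := by
      haveI : Fact ((0 : ℝ) < 1) := ⟨one_pos⟩
      refine (AddCircle.coe_eq_coe_iff_of_mem_Ico (p := (1 : ℝ)) (a := 0) ?_ ?_).1 hzX
      · exact ⟨by linarith [hz.1], by linarith [hz.2]⟩
      · exact ⟨by linarith, by linarith⟩
    linarith [hz.1]
  · intro h
    obtain ⟨n, hn⟩ := PP_halt M w h
    refine ⟨n / 8, by positivity, PP M.code (w.map Fin.val) n 2, hn, ?_⟩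
    rw [traj_pos (gs_indep M.code _) (velo_slot M.code _) hX n]
    rfl

theorem compiler {ν : ℝ} (hc : ComputableReal ν) :
    ∃ C : MC × List ℕ → Nat.Partrec.Code, Computable C ∧
      ∀ (M : TM) (w : List ℕ), Computes (C (M.code, w)) (force ν M.code w) := by
  obtain ⟨C, h1, h2⟩ := exists_compiler hc (fun a : MC × List ℕ => GP a.1)
    (fun a => IP a.1 a.2) p_GP p_IP
  exact ⟨C, h1, fun M w => h2 (M.code, w) fun i => good_GP M i⟩

end Vale.Agent.P113
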