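import Vale.Agent.P113.Approx

/-! Periodization of symbolic polynomials, the force operator and the force compiler. -/

namespace Vale.Agent.P113

open Filter Topology
open scoped ContDiff

theorem mixed_append (α β : List (Fin 4)) (g : P4 → ℝ) :
    mixed (α ++ β) g = mixed α (mixed β g) := by
  induction α with
  | nil => rfl
  | cons i α ih => simp only [List.cons_append, mixed, ih]

theorem mixed_contDiff (α : List (Fin 4)) {g : P4 → ℝ} (hg : ContDiff ℝ ∞ g) :
    ContDiff ℝ ∞ (mixed α g) := by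
  induction α with
  | nil => exact hg
  | cons i α ih =>
    simp only [mixed]
    exact (ih.fderiv_right (m := ∞) (by simp)).clm_apply contDiff_const

theorem mixed_add (α : List (Fin 4)) {g h : P4 → ℝ} (hg : ContDiff ℝ ∞ g)
    (hh : ContDiff ℝ ∞ h) :
    mixed α (fun p => g p + h p) = fun p => mixed α g p + mixed α h p := by
  induction α with
  | nil => rfl
  | cons i α ih =>
    funext p
    simp only [mixed, ih]
    exact pd_add ((mixed_contDiff α hg).differentiable (by simp) p)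
      ((mixed_contDiff α hh).differentiable (by simp) p)

theorem mixed_const_mul (α : List (Fin 4)) (c : ℝ) {g : P4 → ℝ} (hg : ContDiff ℝ ∞ g) :
    mixed α (fun p => c * g p) = fun p => c * mixed α g p := by
  induction α with
  | nil => rfl
  | cons i α ih =>
    funext p
    simp only [mixed, ih]
    rw [fderiv_const_mul ((mixed_contDiff α hg).differentiable (by simp) p)]
    simp

theorem mixed_shift_eventually (α : List (Fin 4)) {g g' : P4 → ℝ} {p v : P4}
    (h : ∀ᶠ q in 𝓝 p, g (q + v) = g' q) :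
    ∀ᶠ q in 𝓝 p, mixed α g (q + v) = mixed α g' q := by
  induction α with
  | nil => exact h
  | cons i α ih =>
    filter_upwards [ih.eventually_nhds] with q hq
    simp only [mixed]
    have h1 : (fun q => mixed α g (q + v)) =ᶠ[𝓝 q] mixed α g' := hq
    rw [← h1.fderiv_eq, fderiv_comp_add_right]

theorem mixed_shift (α : List (Fin 4)) {g g' : P4 → ℝ} {p v : P4}
    (h : ∀ᶠ q in 𝓝 p, g (q + v) = g' q) : mixed α g (p + v) = mixed α g' p :=
  (mixed_shift_eventually α h).self_of_nhds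

noncomputable def fr (p : P4) : P4 := fun j => Int.fract (p j)

/-- Near every point the periodization agrees with an integer translate. -/
def Good (g : P4 → ℝ) : Prop :=
  ∀ p : P4, ∀ᶠ q in 𝓝 p, g (q + fun j => -(⌊p j⌋ : ℝ)) = g (fr q)

theorem Good.add {g h : P4 → ℝ} (hg : Good g) (hh : Good h) : Good (fun p => g p + h p) := by
  intro p
  filter_upwards [hg p, hh p] with q h1 h2
  simp only [h1, h2]

theorem Good.mul {g h : P4 → ℝ} (hg : Good g) (hh : Good h) : Good (fun p => g p * h p) := by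
  intro p
  filter_upwards [hg p, hh p] with q h1 h2
  simp only [h1, h2]

theorem Good.const (c : ℝ) : Good (fun _ => c) := fun _ => Eventually.of_forall fun _ => rfl

theorem Good.coord (j : Fin 4) {φ : ℝ → ℝ} (h0 : ∀ x, x ≤ 1 / 32 → φ x = 0)
    (h1 : ∀ x, 31 / 32 ≤ x → φ x = 0) : Good (fun p => φ (p j)) := by
  intro p
  have hc : Continuous fun q : P4 => q j := continuous_apply j
  have a1 : ∀ᶠ q : P4 in 𝓝 p, q j < (⌊p j⌋ : ℝ) + 1 :=
    hc.continuousAt.eventually_lt continuousAt_const (Int.lt_floor_add_one _)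
  have a2 : ∀ᶠ q : P4 in 𝓝 p, (⌊p j⌋ : ℝ) - 1 / 32 < q j :=
    continuousAt_const.eventually_lt hc.continuousAt (by linarith [Int.floor_le (p j)])
  filter_upwards [a1, a2] with q b1 b2
  simp only [Pi.add_apply, fr]
  rcases le_or_gt (⌊p j⌋ : ℝ) (q j) with h | h
  · have : ⌊q j⌋ = ⌊p j⌋ := Int.floor_eq_iff.2 ⟨h, b1⟩
    rw [Int.fract, this, sub_eq_add_neg]
  · have : ⌊q j⌋ = ⌊p j⌋ - 1 := by
      rw [Int.floor_eq_iff]; push_cast; constructor <;> linarith
    rw [Int.fract, this, h0 _ (by linarith), h1 _ (by push_cast; linarith)]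

theorem Good.contDiff {g : P4 → ℝ} (hg : Good g) (hs : ContDiff ℝ ∞ g) :
    ContDiff ℝ ∞ (fun p => g (fr p)) := by
  rw [contDiff_iff_contDiffAt]
  intro p
  have h1 : ContDiffAt ℝ ∞ (fun q : P4 => g (q + fun j => -(⌊p j⌋ : ℝ))) p :=
    (hs.comp (contDiff_id.add contDiff_const)).contDiffAt
  exact h1.congr_of_eventuallyEq ((hg p).mono fun q hq => hq.symm)

theorem Good.mixed {g : P4 → ℝ} (hg : Good g) (α : List (Fin 4)) (p : P4) :
    mixed α (fun q => g (fr q)) p = mixed α g (fr p) := by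
  rw [← mixed_shift α (hg p)]
  congr 1

/-- Periodized part plus start-up part. -/
noncomputable def UU (G I : Poly) (p : P4) : ℝ := evP G (fr p) + evP I p

theorem UU_contDiff {G : Poly} (I : Poly) (hG : Good (evP G)) : ContDiff ℝ ∞ (UU G I) :=
  (hG.contDiff (evP_contDiff G)).add (evP_contDiff I)

theorem mixed_UU {G : Poly} (I : Poly) (hG : Good (evP G)) (α : List (Fin 4)) (p : P4) :
    mixed α (UU G I) p =
      evP (dPs (α.map Fin.val) G) (fr p) + evP (dPs (α.map Fin.val) I) p := by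
  have := mixed_add α (hG.contDiff (evP_contDiff G)) (evP_contDiff I)
  have h2 : mixed α (UU G I) p = _ := congrFun this p
  rw [h2, hG.mixed, mixed_evP, mixed_evP]

/-- The heat operator `∂_t - ν Δ`. -/
noncomputable def FF (ν : ℝ) (U : P4 → ℝ) (p : P4) : ℝ :=
  mixed [0] U p + (-ν) * (mixed [1, 1] U p + mixed [2, 2] U p + mixed [3, 3] U p)

theorem FF_contDiff (ν : ℝ) {U : P4 → ℝ} (hU : ContDiff ℝ ∞ U) : ContDiff ℝ ∞ (FF ν U) :=
  (mixed_contDiff _ hU).add (contDiff_const.mul
    (((mixed_contDiff _ hU).add (mixed_contDiff _ hU)).add (mixed_contDiff _ hU)))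

theorem FF_shift (ν : ℝ) {g g' : P4 → ℝ} {p v : P4} (h : ∀ᶠ q in 𝓝 p, g (q + v) = g' q) :
    FF ν g (p + v) = FF ν g' p := by
  simp only [FF, mixed_shift _ h]

theorem mixed_FF (ν : ℝ) {U : P4 → ℝ} (hU : ContDiff ℝ ∞ U) (α : List (Fin 4)) (p : P4) :
    mixed α (FF ν U) p = mixed (α ++ [0]) U p + (-ν) * (mixed (α ++ [1, 1]) U p +
      mixed (α ++ [2, 2]) U p + mixed (α ++ [3, 3]) U p) := by
  have h1 := mixed_contDiff [1, 1] hU
  have h2 := mixed_contDiff [2, 2] hU
  have h3 := mixed_contDiff [3, 3] hU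
  have h0 := mixed_contDiff [0] hU
  have e : FF ν U = fun p => mixed [0] U p + (fun p => (-ν) * ((fun p =>
    (fun p => mixed [1, 1] U p + mixed [2, 2] U p) p + mixed [3, 3] U p) p)) p := rfl
  rw [e, mixed_add α h0 (contDiff_const.mul ((h1.add h2).add h3)),
    mixed_const_mul α _ ((h1.add h2).add h3), mixed_add α (h1.add h2) h3, mixed_add α h1 h2]
  simp only [mixed_append]

def fractZ (z : Z4) : Z4 := (fractQ z.1, fractQ z.2.1, fractQ z.2.2.1, fractQ z.2.2.2)

theorem toP_fractZ (z : Z4) : toP (fractZ z) = fr (toP z) := by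
  funext j
  fin_cases j <;> simp [toP, fractZ, fr, ratOf_fractQ]

def valA (G I : Poly) (γ : List ℕ) (z : Z4) (k : ℕ) : Q × Q :=
  addA (apP (dPs γ G) (fractZ z) k) (apP (dPs γ I) z k)

def resA (G I : Poly) (α : List ℕ) (z : Z4) (k : ℕ) (n : Q) : Q × Q :=
  addA (valA G I (α ++ [0]) z k) (mulA (negA (n, (1, 0, k)))
    (addA (addA (valA G I (α ++ [1, 1]) z k) (valA G I (α ++ [2, 2]) z k))
      (valA G I (α ++ [3, 3]) z k)))

@[fun_prop] theorem p_valA {α : Type} [Primcodable α] {G I : α → Poly} {γ : α → List ℕ}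
    {z : α → Z4} {k : α → ℕ} (hG : Primrec G) (hI : Primrec I) (hγ : Primrec γ)
    (hz : Primrec z) (hk : Primrec k) :
    Primrec (fun a => valA (G a) (I a) (γ a) (z a) (k a)) := by
  unfold valA fractZ; fun_prop

@[fun_prop] theorem p_resA {α : Type} [Primcodable α] {G I : α → Poly} {γ : α → List ℕ}
    {z : α → Z4} {k : α → ℕ} {n : α → Q} (hG : Primrec G) (hI : Primrec I) (hγ : Primrec γ)
    (hz : Primrec z) (hk : Primrec k) (hn : Primrec n) :
    Primrec (fun a => resA (G a) (I a) (γ a) (z a) (k a) (n a)) := by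
  unfold resA; fun_prop

theorem valA_spec {G : Poly} (I : Poly) (hG : Good (evP G)) (γ : List (Fin 4)) (z : Z4) :
    Apx (valA G I (γ.map Fin.val) z) (mixed γ (UU G I) (toP z)) := by
  rw [mixed_UU I hG, ← toP_fractZ]
  exact (apP_spec _ _).add (apP_spec _ _)

theorem resA_spec {G : Poly} (I : Poly) (hG : Good (evP G)) (α : List (Fin 4)) (z : Z4)
    {ν : ℝ} {g : ℕ → Q} (hg : ∀ k : ℕ, |ratOf (g k) - ν| ≤ 1 / ((k : ℝ) + 1)) :
    Apx (fun k => resA G I (α.map Fin.val) z k (g k)) (mixed α (FF ν (UU G I)) (toP z)) := by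
  rw [mixed_FF ν (UU_contDiff I hG)]
  have hν : Apx (fun k => (g k, (1, 0, k))) ν := by
    have e : ∀ k : ℕ, ratOf (1, 0, k) = 1 / ((k : ℝ) + 1) := by intro k; simp [ratOf]
    refine ⟨fun k => by simpa only [e] using hg k, ?_⟩
    simp only [e]
    exact tendsto_one_div_add_atTop_nhds_zero_nat
  have h0 := valA_spec I hG (α ++ [0]) z
  have h1 := valA_spec I hG (α ++ [1, 1]) z
  have h2 := valA_spec I hG (α ++ [2, 2]) z
  have h3 := valA_spec I hG (α ++ [3, 3]) z
  rw [List.map_append] at h0 h1 h2 h3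
  exact h0.add (hν.neg.mul ((h1.add h2).add h3))

theorem exists_compiler {A : Type} [Primcodable A] {ν : ℝ} (hc : ComputableReal ν)
    (G I : A → ℕ → Poly) (hG : Primrec fun p : A × ℕ => G p.1 p.2)
    (hI : Primrec fun p : A × ℕ => I p.1 p.2) :
    ∃ C : A → Nat.Partrec.Code, Computable C ∧ ∀ a, (∀ i : Fin 3, Good (evP (G a i))) →
      Computes (C a) (fun t x i => FF ν (UU (G a i) (I a i)) (Fin.cons t x)) := by
  obtain ⟨g, hg, hgν⟩ := hc
  let R : (A × (List ℕ × ℕ × Z4 × Q)) × (ℕ × Q) → Option Q := fun s =>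
    cond (leQ (resA (G s.1.1 s.1.2.2.1) (I s.1.1 s.1.2.2.1) s.1.2.1 s.1.2.2.2.1 s.2.1 s.2.2).2
      s.1.2.2.2.2)
      (some (resA (G s.1.1 s.1.2.2.1) (I s.1.1 s.1.2.2.1) s.1.2.1 s.1.2.2.2.1 s.2.1 s.2.2).1) none
  have hG' : Primrec fun s : (A × (List ℕ × ℕ × Z4 × Q)) × (ℕ × Q) => G s.1.1 s.1.2.2.1 :=
    hG.comp (g := fun s : (A × (List ℕ × ℕ × Z4 × Q)) × (ℕ × Q) => (s.1.1, s.1.2.2.1))
      (by fun_prop)
  have hI' : Primrec fun s : (A × (List ℕ × ℕ × Z4 × Q)) × (ℕ × Q) => I s.1.1 s.1.2.2.1 :=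
    hI.comp (g := fun s : (A × (List ℕ × ℕ × Z4 × Q)) × (ℕ × Q) => (s.1.1, s.1.2.2.1))
      (by fun_prop)
  have hres : Primrec fun s : (A × (List ℕ × ℕ × Z4 × Q)) × (ℕ × Q) =>
      resA (G s.1.1 s.1.2.2.1) (I s.1.1 s.1.2.2.1) s.1.2.1 s.1.2.2.2.1 s.2.1 s.2.2 :=
    p_resA hG' hI' (by fun_prop) (by fun_prop) (by fun_prop) (by fun_prop)
  have hR : Primrec R :=
    Primrec.cond (p_leQ (Primrec.snd.comp hres) (by fun_prop))
      (Primrec.option_some.comp (Primrec.fst.comp hres)) (Primrec.const none)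
  have hR2 : Computable₂ fun (s : A × (List ℕ × ℕ × Z4 × Q)) (k : ℕ) => R (s, (k, g k)) :=
    hR.to_comp.comp (Computable.fst.pair (Computable.snd.pair (hg.comp Computable.snd)))
  have hP : Partrec fun s : A × (List ℕ × ℕ × Z4 × Q) =>
      Nat.rfindOpt fun k => R (s, (k, g k)) := Partrec.rfindOpt hR2
  obtain ⟨c, hc⟩ := Nat.Partrec.Code.exists_code.1 hP
  refine ⟨fun a => Nat.Partrec.Code.curry c (Encodable.encode a), ?_, ?_⟩
  · exact (Nat.Partrec.Code.primrec₂_curry.comp (Primrec.const c) Primrec.encode).to_comp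
  · intro a ha α i z ε hε
    have hap := resA_spec (I a i) (ha i) α (z 0, z 1, z 2, z 3) hgν
    have e1 : (fun y : Fin 4 → ℝ => FF ν (UU (G a i) (I a i)) (Fin.cons (y 0) (Fin.tail y))) =
        FF ν (UU (G a i) (I a i)) := by
      funext y; rw [Fin.cons_self_tail]
    have e2 : toP (z 0, z 1, z 2, z 3) = fun j => ratOf (z j) := by
      funext j; fin_cases j <;> simp [toP]
    rw [e2] at hap
    obtain ⟨k, hk⟩ := (hap.2.eventually (ge_mem_nhds hε)).exists
    let s : A × (List ℕ × ℕ × Z4 × Q) := (a, (α.map Fin.val, i.val, (z 0, z 1, z 2, z 3), ε))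
    have hdom : (Nat.rfindOpt fun k => R (s, (k, g k))).Dom := by
      rw [Nat.rfindOpt_dom]
      refine ⟨k, (resA (G a i) (I a i) (α.map Fin.val) (z 0, z 1, z 2, z 3) k (g k)).1, ?_⟩
      have : leQ (resA (G a i) (I a i) (α.map Fin.val) (z 0, z 1, z 2, z 3) k (g k)).2 ε = true :=
        (leQ_iff _ _).2 hk
      simp only [R, s, this, cond_true, Option.mem_def]
    have hmem := Part.get_mem hdom
    set r := (Nat.rfindOpt fun k => R (s, (k, g k))).get hdom with hr
    refine ⟨r, ?_, ?_⟩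
    · rw [Nat.Partrec.Code.eval_curry, hc]
      have e3 : Nat.pair (Encodable.encode a) (Encodable.encode
          ((α.map Fin.val, i.val, (z 0, z 1, z 2, z 3), ε) : List ℕ × ℕ × Z4 × Q)) =
          Encodable.encode s := rfl
      rw [e3]
      simp only [Encodable.encodek, Part.coe_some, Part.bind_some]
      exact Part.mem_map _ hmem
    · obtain ⟨k', hk'⟩ := Nat.rfindOpt_spec hmem
      simp only [e1]
      cases hb : leQ (resA (G a i) (I a i) (α.map Fin.val) (z 0, z 1, z 2, z 3) k' (g k')).2 ε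
      · simp only [R, s, hb, cond_false] at hk'
        exact absurd hk' (by simp)
      · simp only [R, s, hb, cond_true, Option.mem_def, Option.some.injEq] at hk'
        rw [← hk']
        exact (hap.1 k').trans ((leQ_iff _ _).1 hb)

end Vale.Agent.P113
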