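import Vale.Agent.P113.Defs
import Vale.Agent.Lib.helper28.PrimrecFP

/-! Symbolic polynomials in smooth atoms, with symbolic differentiation. -/

namespace Vale.Agent.P113

open scoped ContDiff

abbrev Q : Type := ℕ × ℕ × ℕ

def natQ (n : ℕ) : Q := (n, 0, 0)
def addQ (r s : Q) : Q :=
  (r.1 * (s.2.2 + 1) + s.1 * (r.2.2 + 1), r.2.1 * (s.2.2 + 1) + s.2.1 * (r.2.2 + 1),
    r.2.2 * s.2.2 + r.2.2 + s.2.2)
def mulQ (r s : Q) : Q :=
  (r.1 * s.1 + r.2.1 * s.2.1, r.1 * s.2.1 + r.2.1 * s.1, r.2.2 * s.2.2 + r.2.2 + s.2.2)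
def negQ (r : Q) : Q := (r.2.1, r.1, r.2.2)
def absQ (r : Q) : Q := ((r.1 - r.2.1) + (r.2.1 - r.1), 0, r.2.2)
def invQ (r : Q) : Q := (r.2.2 + 1, 0, r.1 - r.2.1 - 1)
def leQ (r s : Q) : Bool :=
  Nat.ble (r.1 * (s.2.2 + 1) + s.2.1 * (r.2.2 + 1)) (s.1 * (r.2.2 + 1) + r.2.1 * (s.2.2 + 1))
def fractQ (r : Q) : Q := ((r.1 + r.2.1 * r.2.2) % (r.2.2 + 1), 0, r.2.2)

@[fun_prop] theorem p_natQ : Primrec natQ := by unfold natQ; fun_prop
@[fun_prop] theorem p_addQ {α : Type} [Primcodable α] {f g : α → Q} (hf : Primrec f)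
    (hg : Primrec g) : Primrec (fun a => addQ (f a) (g a)) := by unfold addQ; fun_prop
@[fun_prop] theorem p_mulQ {α : Type} [Primcodable α] {f g : α → Q} (hf : Primrec f)
    (hg : Primrec g) : Primrec (fun a => mulQ (f a) (g a)) := by unfold mulQ; fun_prop
@[fun_prop] theorem p_negQ : Primrec negQ := by unfold negQ; fun_prop
@[fun_prop] theorem p_absQ : Primrec absQ := by unfold absQ; fun_prop
@[fun_prop] theorem p_invQ : Primrec invQ := by unfold invQ; fun_prop
@[fun_prop] theorem p_leQ {α : Type} [Primcodable α] {f g : α → Q} (hf : Primrec f)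
    (hg : Primrec g) : Primrec (fun a => leQ (f a) (g a)) := by unfold leQ; fun_prop
@[fun_prop] theorem p_fractQ : Primrec fractQ := by unfold fractQ; fun_prop

@[simp] theorem ratOf_natQ (n : ℕ) : ratOf (natQ n) = n := by simp [ratOf, natQ]

@[simp] theorem ratOf_addQ (r s : Q) : ratOf (addQ r s) = ratOf r + ratOf s := by
  simp only [ratOf, addQ]
  push_cast
  have h1 : (r.2.2 : ℝ) + 1 ≠ 0 := by positivity
  have h2 : (s.2.2 : ℝ) + 1 ≠ 0 := by positivity
  have h3 : (r.2.2 : ℝ) * s.2.2 + r.2.2 + s.2.2 + 1 = (r.2.2 + 1) * (s.2.2 + 1) := by ring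
  rw [h3]
  field_simp
  ring

@[simp] theorem ratOf_mulQ (r s : Q) : ratOf (mulQ r s) = ratOf r * ratOf s := by
  simp only [ratOf, mulQ]
  push_cast
  have h1 : (r.2.2 : ℝ) + 1 ≠ 0 := by positivity
  have h2 : (s.2.2 : ℝ) + 1 ≠ 0 := by positivity
  have h3 : (r.2.2 : ℝ) * s.2.2 + r.2.2 + s.2.2 + 1 = (r.2.2 + 1) * (s.2.2 + 1) := by ring
  rw [h3]
  field_simp
  ring

@[simp] theorem ratOf_negQ (r : Q) : ratOf (negQ r) = - ratOf r := by
  simp only [ratOf, negQ]
  ring

@[simp] theorem ratOf_absQ (r : Q) : ratOf (absQ r) = |ratOf r| := by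
  simp only [ratOf, absQ]
  have h1 : (0 : ℝ) < (r.2.2 : ℝ) + 1 := by positivity
  rw [abs_div, abs_of_pos h1]
  congr 1
  rcases le_total r.1 r.2.1 with h | h
  · rw [Nat.sub_eq_zero_of_le h, zero_add, Nat.cast_sub h, abs_of_nonpos]
    · simp
    · have : (r.1 : ℝ) ≤ r.2.1 := by exact_mod_cast h
      linarith
  · rw [Nat.sub_eq_zero_of_le h, add_zero, Nat.cast_sub h, abs_of_nonneg]
    · simp
    · have : (r.2.1 : ℝ) ≤ r.1 := by exact_mod_cast h
      linarith

theorem ratOf_pos_iff (r : Q) : 0 < ratOf r ↔ r.2.1 < r.1 := by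
  simp only [ratOf]
  have h1 : (0 : ℝ) < (r.2.2 : ℝ) + 1 := by positivity
  rw [div_pos_iff_of_pos_right h1, sub_pos, Nat.cast_lt]

theorem ratOf_invQ (r : Q) (h : 0 < ratOf r) : ratOf (invQ r) = (ratOf r)⁻¹ := by
  have h' := (ratOf_pos_iff r).1 h
  simp only [ratOf, invQ]
  have h2 : ((r.1 - r.2.1 - 1 : ℕ) : ℝ) + 1 = (r.1 : ℝ) - r.2.1 := by
    have : r.1 - r.2.1 - 1 + 1 = r.1 - r.2.1 := by omega
    rw [← Nat.cast_sub h'.le, ← this]
    push_cast
    simp
  rw [h2, inv_div]
  push_cast
  simp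

theorem leQ_iff (r s : Q) : leQ r s = true ↔ ratOf r ≤ ratOf s := by
  simp only [leQ, ratOf, Nat.ble_eq]
  have h1 : (0 : ℝ) < (r.2.2 : ℝ) + 1 := by positivity
  have h2 : (0 : ℝ) < (s.2.2 : ℝ) + 1 := by positivity
  rw [div_le_div_iff₀ h1 h2, ← Nat.cast_le (α := ℝ)]
  push_cast
  constructor <;> intro h <;> nlinarith

theorem ratOf_fractQ (r : Q) : ratOf (fractQ r) = Int.fract (ratOf r) := by
  symm
  rw [Int.fract_eq_iff]
  have h1 : (0 : ℝ) < (r.2.2 : ℝ) + 1 := by positivity
  simp only [ratOf, fractQ]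
  refine ⟨by simp; positivity, ?_, ?_⟩
  · rw [div_lt_one h1]
    have := Nat.mod_lt (r.1 + r.2.1 * r.2.2) (Nat.succ_pos r.2.2)
    simp only [Nat.cast_zero, sub_zero]
    exact_mod_cast this
  · refine ⟨((r.1 + r.2.1 * r.2.2) / (r.2.2 + 1) : ℕ) - r.2.1, ?_⟩
    have := Nat.div_add_mod (r.1 + r.2.1 * r.2.2) (r.2.2 + 1)
    have h2 : ((r.2.2 : ℝ) + 1) * (((r.1 + r.2.1 * r.2.2) / (r.2.2 + 1) : ℕ) : ℝ)
        + (((r.1 + r.2.1 * r.2.2) % (r.2.2 + 1) : ℕ) : ℝ) = r.1 + r.2.1 * r.2.2 := by
      exact_mod_cast this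
    simp only [Nat.cast_zero, sub_zero, Int.cast_sub, Int.cast_natCast]
    field_simp
    linarith

/-- Atoms: kind, order, coordinate, slope, offset. -/
abbrev Atom : Type := ℕ × ℕ × ℕ × Q × Q
abbrev Mono : Type := List Atom
abbrev Poly : Type := List (List Atom)
abbrev P4 : Type := Fin 4 → ℝ

noncomputable def crd (j : ℕ) : P4 →L[ℝ] ℝ :=
  if h : j < 4 then ContinuousLinearMap.proj (⟨j, h⟩ : Fin 4) else 0

theorem crd_single (j : ℕ) (i : Fin 4) : crd j (Pi.single i 1) = if i.val = j then 1 else 0 := by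
  unfold crd
  split_ifs with h1 h2 h2
  · subst h2; simp
  · simp only [ContinuousLinearMap.proj_apply]
    rw [Pi.single_eq_of_ne]
    intro h
    apply h2
    rw [← h]
  · exact absurd (h2 ▸ i.isLt) h1
  · simp

noncomputable def GG (b : ℕ) (x : ℝ) : ℝ := (x⁻¹) ^ b * expNegInvGlue x
noncomputable def DD (x : ℝ) : ℝ := (GG 0 x + GG 0 (1 - x))⁻¹

theorem GG_zero (x : ℝ) : GG 0 x = expNegInvGlue x := by simp [GG]

theorem GG_contDiff (b : ℕ) : ContDiff ℝ ∞ (GG b) := by
  have := expNegInvGlue.contDiff_polynomial_eval_inv_mul (n := ⊤) (Polynomial.X ^ b)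
  have h1 : (fun x : ℝ => Polynomial.eval x⁻¹ ((Polynomial.X : Polynomial ℝ) ^ b) *
      expNegInvGlue x) = GG b := by
    funext x; simp [GG]
  rwa [h1] at this

theorem GG_hasDerivAt (b : ℕ) (x : ℝ) :
    HasDerivAt (GG b) (-(b : ℝ) * GG (b + 1) x + GG (b + 2) x) x := by
  have := expNegInvGlue.hasDerivAt_polynomial_eval_inv_mul (Polynomial.X ^ b) x
  have h1 : (fun x : ℝ => Polynomial.eval x⁻¹ ((Polynomial.X : Polynomial ℝ) ^ b) *
      expNegInvGlue x) = GG b := by
    funext x; simp [GG]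
  rw [h1] at this
  convert this using 1
  rcases b with _ | b
  · simp [GG]
  · simp only [GG, Polynomial.derivative_X_pow, Polynomial.eval_mul, Polynomial.eval_pow,
      Polynomial.eval_X, Polynomial.eval_sub, Polynomial.eval_C, Nat.add_sub_cancel]
    push_cast
    ring

theorem DD_denom_pos (x : ℝ) : 0 < GG 0 x + GG 0 (1 - x) := by
  rw [GG_zero, GG_zero]; exact Real.smoothTransition.pos_denom x

theorem DD_contDiff : ContDiff ℝ ∞ DD := by
  unfold DD
  refine ContDiff.inv ((GG_contDiff 0).add ((GG_contDiff 0).comp (contDiff_const.sub contDiff_id)))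
    fun x => (DD_denom_pos x).ne'

theorem DD_hasDerivAt (x : ℝ) :
    HasDerivAt DD (-(DD x * (DD x * GG 2 x)) + DD x * (DD x * GG 2 (1 - x))) x := by
  have h1 := GG_hasDerivAt 0 x
  have h2 : HasDerivAt (fun x => GG 0 (1 - x)) _ x :=
    (GG_hasDerivAt 0 (1 - x)).comp x ((hasDerivAt_id x).const_sub 1)
  have h3 := (h1.fun_add h2).fun_inv (DD_denom_pos x).ne'
  have h4 : HasDerivAt DD _ x := h3
  refine h4.congr_deriv ?_
  have := (DD_denom_pos x).ne'
  simp only [DD, Nat.cast_zero, neg_zero, zero_mul, zero_add]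
  field_simp
  ring

theorem GG_mul_DD (x : ℝ) : GG 0 x * DD x = Real.smoothTransition x := by
  simp [DD, GG_zero, Real.smoothTransition, div_eq_mul_inv]

noncomputable def phi (k b : ℕ) : ℝ → ℝ :=
  if k = 0 then fun x => x else if k = 1 then GG b else DD

noncomputable def argA (a : Atom) (p : P4) : ℝ := ratOf a.2.2.2.1 * crd a.2.2.1 p + ratOf a.2.2.2.2
noncomputable def evA (a : Atom) (p : P4) : ℝ := phi a.1 a.2.1 (argA a p)
noncomputable def evM (m : Mono) (p : P4) : ℝ := (m.map fun a => evA a p).prod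
noncomputable def evP (P : Poly) (p : P4) : ℝ := (P.map fun m => evM m p).sum

@[simp] theorem evM_nil (p : P4) : evM [] p = 1 := by simp [evM]
@[simp] theorem evM_cons (a : Atom) (m : Mono) (p : P4) : evM (a :: m) p = evA a p * evM m p := by
  simp [evM]
@[simp] theorem evM_append (m n : Mono) (p : P4) : evM (m ++ n) p = evM m p * evM n p := by
  simp [evM]
@[simp] theorem evP_nil (p : P4) : evP [] p = 0 := by simp [evP]
@[simp] theorem evP_cons (m : Mono) (P : Poly) (p : P4) : evP (m :: P) p = evM m p + evP P p := by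
  simp [evP]
@[simp] theorem evP_append (P R : Poly) (p : P4) : evP (P ++ R) p = evP P p + evP R p := by
  simp [evP]

theorem evP_map_append (P : Poly) (m : Mono) (p : P4) :
    evP (P.map fun n => n ++ m) p = evP P p * evM m p := by
  induction P with
  | nil => simp
  | cons n P ih => simp [ih, add_mul]

theorem evP_map_cons (P : Poly) (a : Atom) (p : P4) :
    evP (P.map fun n => a :: n) p = evA a p * evP P p := by
  induction P with
  | nil => simp
  | cons n P ih => simp [ih, mul_add]

theorem evP_flatMap {β : Type} (l : List β) (g : β → Poly) (p : P4) :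
    evP (l.flatMap g) p = (l.map fun b => evP (g b) p).sum := by
  induction l with
  | nil => simp
  | cons n P ih => simp [ih]

theorem evP_flatMap_range (n : ℕ) (g : ℕ → Poly) (p : P4) :
    evP ((List.range n).flatMap g) p = ∑ i ∈ Finset.range n, evP (g i) p := by
  rw [evP_flatMap]
  induction n with
  | zero => simp
  | succ n ih => rw [List.range_succ, List.map_append, List.sum_append, ih, Finset.sum_range_succ]; simp

def cst (c : Q) : Atom := (0, 0, 0, natQ 0, c)

@[simp] theorem evA_cst (c : Q) (p : P4) : evA (cst c) p = ratOf c := by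
  simp [evA, cst, phi, argA]

@[fun_prop] theorem p_cst : Primrec cst := by unfold cst; fun_prop

theorem phi_contDiff (k b : ℕ) : ContDiff ℝ ∞ (phi k b) := by
  unfold phi
  split_ifs
  · exact contDiff_id
  · exact GG_contDiff b
  · exact DD_contDiff

theorem argA_contDiff (a : Atom) : ContDiff ℝ ∞ (argA a) := by
  unfold argA
  exact (contDiff_const.mul (crd a.2.2.1).contDiff).add contDiff_const

theorem evA_contDiff (a : Atom) : ContDiff ℝ ∞ (evA a) :=
  (phi_contDiff a.1 a.2.1).comp (argA_contDiff a)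

theorem evM_contDiff (m : Mono) : ContDiff ℝ ∞ (evM m) := by
  induction m with
  | nil =>
    have : evM [] = fun _ => (1 : ℝ) := funext fun p => by simp
    rw [this]; exact contDiff_const
  | cons a m ih =>
    have : evM (a :: m) = fun z => evA a z * evM m z := funext fun p => by simp
    rw [this]; exact (evA_contDiff a).mul ih

theorem evP_contDiff (P : Poly) : ContDiff ℝ ∞ (evP P) := by
  induction P with
  | nil =>
    have : evP [] = fun _ => (0 : ℝ) := funext fun p => by simp
    rw [this]; exact contDiff_const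
  | cons a m ih =>
    have : evP (a :: m) = fun z => evM a z + evP m z := funext fun p => by simp
    rw [this]; exact (evM_contDiff a).add ih

def dA (i : ℕ) (a : Atom) : Poly :=
  cond (Nat.beq i a.2.2.1)
    (cond (Nat.beq a.1 0) [[cst a.2.2.2.1]]
      (cond (Nat.beq a.1 1)
        [[cst (mulQ (negQ (natQ a.2.1)) a.2.2.2.1), (1, a.2.1 + 1, a.2.2)],
          [cst a.2.2.2.1, (1, a.2.1 + 2, a.2.2)]]
        [[cst (negQ a.2.2.2.1), a, a, (1, 2, a.2.2)],
          [cst a.2.2.2.1, a, a,
            (1, 2, a.2.2.1, negQ a.2.2.2.1, addQ (natQ 1) (negQ a.2.2.2.2))]]))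
    []

def dMaux (i : ℕ) (m : Mono) : Mono × Poly :=
  m.foldr (fun a s => (a :: s.1,
    ((dA i a).map fun n => n ++ s.1) ++ (s.2.map fun n => a :: n))) ([], [])

def dM (i : ℕ) (m : Mono) : Poly := (dMaux i m).2
def dP (i : ℕ) (P : Poly) : Poly := P.flatMap fun m => dM i m
def dPs (α : List ℕ) (P : Poly) : Poly := α.foldr (fun i R => dP i R) P

@[fun_prop] theorem p_dA {α : Type} [Primcodable α] {f : α → ℕ} {g : α → Atom} (hf : Primrec f)
    (hg : Primrec g) : Primrec (fun a => dA (f a) (g a)) := by unfold dA; fun_prop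
@[fun_prop] theorem p_dM {α : Type} [Primcodable α] {f : α → ℕ} {g : α → Mono} (hf : Primrec f)
    (hg : Primrec g) : Primrec (fun a => dM (f a) (g a)) := by unfold dM dMaux; fun_prop
@[fun_prop] theorem p_dP {α : Type} [Primcodable α] {f : α → ℕ} {g : α → Poly} (hf : Primrec f)
    (hg : Primrec g) : Primrec (fun a => dP (f a) (g a)) := by unfold dP; fun_prop
@[fun_prop] theorem p_dPs {α : Type} [Primcodable α] {f : α → List ℕ} {g : α → Poly}
    (hf : Primrec f) (hg : Primrec g) : Primrec (fun a => dPs (f a) (g a)) := by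
  unfold dPs; fun_prop

/-- Coordinate derivative in space-time. -/
noncomputable def pd (i : Fin 4) (g : P4 → ℝ) (z : P4) : ℝ := fderiv ℝ g z (Pi.single i 1)

theorem pd_evA (i : Fin 4) (a : Atom) (p : P4) : pd i (evA a) p = evP (dA i.val a) p := by
  have harg : HasFDerivAt (argA a) (ratOf a.2.2.2.1 • crd a.2.2.1) p := by
    unfold argA
    exact ((crd a.2.2.1).hasFDerivAt.const_mul _).add_const _
  have key : ∀ c : ℝ, HasDerivAt (phi a.1 a.2.1) c (argA a p) →
      pd i (evA a) p = if i.val = a.2.2.1 then c * ratOf a.2.2.2.1 else 0 := by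
    intro c hc
    have h := hc.comp_hasFDerivAt p harg
    have h' : HasFDerivAt (evA a) (c • (ratOf a.2.2.2.1 • crd a.2.2.1)) p := h
    rw [pd, h'.fderiv]
    simp [crd_single]
  by_cases hi : i.val = a.2.2.1
  · have hb : Nat.beq a.2.2.1 a.2.2.1 = true := Nat.beq_refl _
    by_cases h0 : a.1 = 0
    · have hb0 : Nat.beq a.1 0 = true := by rw [h0]; rfl
      rw [key 1 (by simp only [phi, h0, if_true]; exact hasDerivAt_id _)]
      simp [dA, hb, hb0, hi]
    · have hb0 : Nat.beq a.1 0 = false := by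
        cases hh : Nat.beq a.1 0
        · rfl
        · exact absurd (Nat.eq_of_beq_eq_true hh) h0
      by_cases h1 : a.1 = 1
      · have hb1 : Nat.beq a.1 1 = true := by rw [h1]; rfl
        rw [key _ (by simp only [phi, h1, one_ne_zero, if_false, if_true]; exact GG_hasDerivAt _ _)]
        simp only [dA, hb, hb0, hb1, cond_true, cond_false, hi, if_true, evP_cons, evP_nil,
          evM_cons, evM_nil, evA_cst, ratOf_mulQ, ratOf_negQ, ratOf_natQ]
        simp only [evA, phi, argA, one_ne_zero, if_false, if_true]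
        ring
      · have hb1 : Nat.beq a.1 1 = false := by
          cases hh : Nat.beq a.1 1
          · rfl
          · exact absurd (Nat.eq_of_beq_eq_true hh) h1
        rw [key _ (by simp only [phi, h0, h1, if_false]; exact DD_hasDerivAt _)]
        simp only [dA, hb, hb0, hb1, cond_true, cond_false, hi, if_true, evP_cons, evP_nil,
          evM_cons, evM_nil, evA_cst, ratOf_negQ]
        simp only [evA, phi, argA, one_ne_zero, if_false, if_true, h0, h1, ratOf_negQ, ratOf_addQ,
          ratOf_natQ, Nat.cast_one]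
        have : 1 - (ratOf a.2.2.2.1 * crd a.2.2.1 p + ratOf a.2.2.2.2) =
            -ratOf a.2.2.2.1 * crd a.2.2.1 p + (1 + -ratOf a.2.2.2.2) := by ring
        rw [this]
        ring
  · have hb : Nat.beq i.val a.2.2.1 = false := by
      cases hh : Nat.beq i.val a.2.2.1
      · rfl
      · exact absurd (Nat.eq_of_beq_eq_true hh) hi
    have hd := ((phi_contDiff a.1 a.2.1).differentiable (by simp) (argA a p)).hasDerivAt
    rw [key _ hd]
    simp [dA, hb, hi]

theorem pd_add {i : Fin 4} {g k : P4 → ℝ} {p : P4} (hg : DifferentiableAt ℝ g p)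
    (hk : DifferentiableAt ℝ k p) : pd i (fun z => g z + k z) p = pd i g p + pd i k p := by
  simp [pd, fderiv_fun_add hg hk]

theorem pd_mul {i : Fin 4} {g k : P4 → ℝ} {p : P4} (hg : DifferentiableAt ℝ g p)
    (hk : DifferentiableAt ℝ k p) :
    pd i (fun z => g z * k z) p = pd i g p * k p + g p * pd i k p := by
  simp [pd, fderiv_fun_mul hg hk]
  ring

theorem dMaux_fst (i : ℕ) (m : Mono) : (dMaux i m).1 = m := by
  induction m with
  | nil => rfl
  | cons a m ih => simp only [dMaux, List.foldr_cons] at ih ⊢; rw [ih]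

theorem dM_cons (i : ℕ) (a : Atom) (m : Mono) :
    dM i (a :: m) = ((dA i a).map fun n => n ++ m) ++ ((dM i m).map fun n => a :: n) := by
  have h := dMaux_fst i m
  simp only [dM, dMaux, List.foldr_cons] at h ⊢
  rw [h]

theorem pd_evM (i : Fin 4) (m : Mono) (p : P4) : pd i (evM m) p = evP (dM i.val m) p := by
  induction m with
  | nil =>
    have : evM [] = fun _ => (1 : ℝ) := funext fun p => by simp
    rw [this]
    simp [pd, dM, dMaux]
  | cons a m ih =>
    have : evM (a :: m) = fun z => evA a z * evM m z := funext fun p => by simp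
    rw [this, pd_mul ((evA_contDiff a).differentiable (by simp) p)
      ((evM_contDiff m).differentiable (by simp) p), ih, pd_evA, dM_cons, evP_append,
      evP_map_append, evP_map_cons]

theorem pd_evP (i : Fin 4) (P : Poly) (p : P4) : pd i (evP P) p = evP (dP i.val P) p := by
  induction P with
  | nil =>
    have : evP [] = fun _ => (0 : ℝ) := funext fun p => by simp
    rw [this]
    simp [pd, dP]
  | cons a m ih =>
    have : evP (a :: m) = fun z => evM a z + evP m z := funext fun p => by simp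
    rw [this, pd_add ((evM_contDiff a).differentiable (by simp) p)
      ((evP_contDiff m).differentiable (by simp) p), ih, pd_evM]
    simp [dP]

theorem mixed_evP (α : List (Fin 4)) (P : Poly) :
    mixed α (evP P) = evP (dPs (α.map Fin.val) P) := by
  induction α with
  | nil => rfl
  | cons i α ih =>
    funext z
    simp only [mixed, ih, List.map_cons, dPs, List.foldr_cons]
    exact pd_evP i _ z

end Vale.Agent.P113
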