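import Vale.Agent.P113.Words
import Vale.Agent.P113.Machine

/-! The shear functions attached to a machine and their values on encoded configurations. -/

namespace Vale.Agent.P113

open Filter Topology Set

def pW (σ c : ℕ) : List ℕ := cond (Nat.beq (σ % 2) 0) [σ, c] [σ]
def qW (σ c : ℕ) : List ℕ := cond (Nat.beq (σ % 2) 0) [] [c]
def wW (σ c : ℕ) : List ℕ := [σ, c]
def hW (cd : MC) (σ c : ℕ) : List ℕ := cond (hl cd (σ / 2)) [KK cd + 1] [σ, c]
def pT (cd : MC) (σ c : ℕ) : List ℕ :=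
  cond (Nat.beq (sg2 cd σ c % 2) 0) [sg2 cd σ c] [sg2 cd σ c, rr cd σ c, ee cd σ c]
def qT (cd : MC) (σ c : ℕ) : List ℕ :=
  cond (Nat.beq (sg2 cd σ c % 2) 0) [rr cd σ c, ee cd σ c] []

def sumP (cd : MC) (F : ℕ → ℕ → Poly) : Poly :=
  (List.range (nS2 cd)).flatMap fun σ => (List.range (KK cd)).flatMap fun c => F σ c

def one : Q := natQ 1
def mone : Q := negQ (natQ 1)

def G2 (cd : MC) : Poly := sumP cd fun σ c =>
  [mono (2 * KK cd) one (hW cd σ c) (pW σ c) 1 (qW σ c) 2]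
def G3 (cd : MC) : Poly := sumP cd fun σ c =>
  [mono (2 * KK cd) one [] (qW σ c) 2 (wW σ c) 3,
    mono (2 * KK cd) mone (pW σ c) (wW σ c) 3 (qW σ c) 2]
def G4 (cd : MC) : Poly := sumP cd fun σ c =>
  [mono (2 * KK cd) one (qT cd σ c) [] 1 (wW σ c) 3,
    mono (2 * KK cd) mone (qW σ c) [] 1 (wW σ c) 3]
def G5 (cd : MC) : Poly := sumP cd fun σ c =>
  [mono (2 * KK cd) one (pT cd σ c) (wW σ c) 3 (qT cd σ c) 2,
    mono (2 * KK cd) mone [] (qT cd σ c) 2 (wW σ c) 3]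
def G6 (cd : MC) : Poly := sumP cd fun σ c =>
  [mono (2 * KK cd) mone (wW σ c) (pT cd σ c) 1 (qT cd σ c) 2]

def GP (cd : MC) (i : ℕ) : Poly :=
  cond (Nat.beq i 0) (mulP (bP 3) (G3 cd) ++ mulP (bP 5) (G5 cd))
    (cond (Nat.beq i 1) (mulP (bP 4) (G4 cd)) (mulP (bP 2) (G2 cd) ++ mulP (bP 6) (G6 cd)))

def IP (cd : MC) (w : List ℕ) (i : ℕ) : Poly :=
  cond (Nat.beq i 0) (mulP (bP 0) [[cst (encA (2 * KK cd) [2 * cd.2.2.1 + 1]).2]])
    (cond (Nat.beq i 1) (mulP (bP 1) [[cst (encA (2 * KK cd) w).2]]) [])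

section prim
variable {α : Type} [Primcodable α]

@[fun_prop] theorem p_mS : Primrec mS := by unfold mS; fun_prop
@[fun_prop] theorem p_nS2 : Primrec nS2 := by unfold nS2; fun_prop
@[fun_prop] theorem p_KK : Primrec KK := by unfold KK; fun_prop
@[fun_prop] theorem p_dl {f : α → MC} {g h : α → ℕ} (hf : Primrec f) (hg : Primrec g)
    (hh : Primrec h) : Primrec (fun a => dl (f a) (g a) (h a)) := by unfold dl; fun_prop
@[fun_prop] theorem p_hl {f : α → MC} {g : α → ℕ} (hf : Primrec f) (hg : Primrec g) :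
    Primrec (fun a => hl (f a) (g a)) := by unfold hl; fun_prop
@[fun_prop] theorem p_sg2 {f : α → MC} {g h : α → ℕ} (hf : Primrec f) (hg : Primrec g)
    (hh : Primrec h) : Primrec (fun a => sg2 (f a) (g a) (h a)) := by unfold sg2; fun_prop
@[fun_prop] theorem p_ee {f : α → MC} {g h : α → ℕ} (hf : Primrec f) (hg : Primrec g)
    (hh : Primrec h) : Primrec (fun a => ee (f a) (g a) (h a)) := by unfold ee; fun_prop
@[fun_prop] theorem p_rr {f : α → MC} {g h : α → ℕ} (hf : Primrec f) (hg : Primrec g)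
    (hh : Primrec h) : Primrec (fun a => rr (f a) (g a) (h a)) := by unfold rr; fun_prop
@[fun_prop] theorem p_pW {g h : α → ℕ} (hg : Primrec g)
    (hh : Primrec h) : Primrec (fun a => pW (g a) (h a)) := by unfold pW; fun_prop
@[fun_prop] theorem p_qW {g h : α → ℕ} (hg : Primrec g)
    (hh : Primrec h) : Primrec (fun a => qW (g a) (h a)) := by unfold qW; fun_prop
@[fun_prop] theorem p_wW {g h : α → ℕ} (hg : Primrec g)
    (hh : Primrec h) : Primrec (fun a => wW (g a) (h a)) := by unfold wW; fun_prop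
@[fun_prop] theorem p_hW {f : α → MC} {g h : α → ℕ} (hf : Primrec f) (hg : Primrec g)
    (hh : Primrec h) : Primrec (fun a => hW (f a) (g a) (h a)) := by unfold hW; fun_prop
@[fun_prop] theorem p_pT {f : α → MC} {g h : α → ℕ} (hf : Primrec f) (hg : Primrec g)
    (hh : Primrec h) : Primrec (fun a => pT (f a) (g a) (h a)) := by unfold pT; fun_prop
@[fun_prop] theorem p_qT {f : α → MC} {g h : α → ℕ} (hf : Primrec f) (hg : Primrec g)
    (hh : Primrec h) : Primrec (fun a => qT (f a) (g a) (h a)) := by unfold qT; fun_prop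

theorem p_sumP {F : MC → ℕ → ℕ → Poly}
    (hF : Primrec fun s : (MC × ℕ) × ℕ => F s.1.1 s.1.2 s.2) :
    Primrec fun cd => sumP cd (F cd) := by
  unfold sumP
  refine Primrec.list_flatMap (by fun_prop) (g := fun cd σ =>
    (List.range (KK cd)).flatMap fun c => F cd σ c) ?_
  exact Primrec.list_flatMap (f := fun s : MC × ℕ => List.range (KK s.1)) (by fun_prop)
    (g := fun s c => F s.1 s.2 c) hF

@[fun_prop] theorem p_G2 : Primrec G2 := by unfold G2; exact p_sumP (by fun_prop)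
@[fun_prop] theorem p_G3 : Primrec G3 := by unfold G3; exact p_sumP (by fun_prop)
@[fun_prop] theorem p_G4 : Primrec G4 := by unfold G4; exact p_sumP (by fun_prop)
@[fun_prop] theorem p_G5 : Primrec G5 := by unfold G5; exact p_sumP (by fun_prop)
@[fun_prop] theorem p_G6 : Primrec G6 := by unfold G6; exact p_sumP (by fun_prop)

theorem p_GP : Primrec fun p : (MC × List ℕ) × ℕ => GP p.1.1 p.2 := by unfold GP; fun_prop
theorem p_IP : Primrec fun p : (MC × List ℕ) × ℕ => IP p.1.1 p.1.2 p.2 := by unfold IP; fun_prop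

end prim

noncomputable def sum2 (cd : MC) (F : ℕ → ℕ → ℝ) : ℝ :=
  ∑ σ ∈ Finset.range (nS2 cd), ∑ c ∈ Finset.range (KK cd), F σ c

theorem evP_sumP (cd : MC) (F : ℕ → ℕ → Poly) (p : P4) :
    evP (sumP cd F) p = sum2 cd fun σ c => evP (F σ c) p := by
  simp only [sumP, sum2, evP_flatMap_range]

theorem sum2_single {cd : MC} {F : ℕ → ℕ → ℝ} {σ c : ℕ} (hσ : σ < nS2 cd) (hc : c < KK cd)
    (h : ∀ σ' < nS2 cd, ∀ c' < KK cd, ¬(σ = σ' ∧ c = c') → F σ' c' = 0) :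
    sum2 cd F = F σ c := by
  unfold sum2
  rw [Finset.sum_eq_single σ, Finset.sum_eq_single c]
  · intro c' hc' hne
    exact h σ hσ c' (Finset.mem_range.1 hc') fun h => hne h.2.symm
  · intro h; exact absurd (Finset.mem_range.2 hc) h
  · intro σ' hσ' hne
    exact Finset.sum_eq_zero fun c' hc' =>
      h σ' (Finset.mem_range.1 hσ') c' (Finset.mem_range.1 hc') fun h => hne h.1.symm
  · intro h; exact absurd (Finset.mem_range.2 hσ) h

theorem sum2_good {cd : MC} {F : ℕ → ℕ → P4 → ℝ}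
    (h : ∀ σ < nS2 cd, ∀ c < KK cd, Good (F σ c)) : Good fun p => sum2 cd fun σ c => F σ c p :=
  Good.sum _ (F := fun σ p => ∑ c ∈ Finset.range (KK cd), F σ c p) fun σ hσ =>
    Good.sum _ fun c hc => h σ hσ c hc

noncomputable def F2 (cd : MC) (X Y : ℝ) : ℝ := sum2 cd fun σ c =>
  trm (2 * KK cd) 1 (hW cd σ c) (pW σ c) X (qW σ c) Y
noncomputable def F3 (cd : MC) (Y Z : ℝ) : ℝ := sum2 cd fun σ c =>
  trm (2 * KK cd) 1 [] (qW σ c) Y (wW σ c) Z + trm (2 * KK cd) (-1) (pW σ c) (wW σ c) Z (qW σ c) Y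
noncomputable def F4 (cd : MC) (X Z : ℝ) : ℝ := sum2 cd fun σ c =>
  trm (2 * KK cd) 1 (qT cd σ c) [] X (wW σ c) Z + trm (2 * KK cd) (-1) (qW σ c) [] X (wW σ c) Z
noncomputable def F5 (cd : MC) (Y Z : ℝ) : ℝ := sum2 cd fun σ c =>
  trm (2 * KK cd) 1 (pT cd σ c) (wW σ c) Z (qT cd σ c) Y +
    trm (2 * KK cd) (-1) [] (qT cd σ c) Y (wW σ c) Z
noncomputable def F6 (cd : MC) (X Y : ℝ) : ℝ := sum2 cd fun σ c =>
  trm (2 * KK cd) (-1) (wW σ c) (pT cd σ c) X (qT cd σ c) Y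

theorem evM_mono' (cd : MC) (sg : Q) (ω₂ ω ω' : List ℕ) (j j' : Fin 4) (p : P4) :
    evM (mono (2 * KK cd) sg ω₂ ω j.val ω' j'.val) p =
      trm (2 * KK cd) (ratOf sg) ω₂ ω (p j - 1 / 4) ω' (p j' - 1 / 4) := by
  have := five_le_KK cd
  rw [evM_mono (by omega)]
  push_cast
  rfl

theorem ratOf_one : ratOf one = 1 := by simp [one]
theorem ratOf_mone : ratOf mone = -1 := by simp [mone]

theorem evP_G2 (cd : MC) (p : P4) : evP (G2 cd) p = F2 cd (p 1 - 1 / 4) (p 2 - 1 / 4) := by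
  rw [G2, evP_sumP, F2]
  congr 1; funext σ c
  rw [evP_cons, evP_nil, add_zero]
  exact (evM_mono' cd _ _ _ _ 1 2 p).trans (by rw [ratOf_one])

theorem evP_G3 (cd : MC) (p : P4) : evP (G3 cd) p = F3 cd (p 2 - 1 / 4) (p 3 - 1 / 4) := by
  rw [G3, evP_sumP, F3]
  congr 1; funext σ c
  rw [evP_cons, evP_cons, evP_nil, add_zero]
  congr 1
  · exact (evM_mono' cd _ _ _ _ 2 3 p).trans (by rw [ratOf_one])
  · exact (evM_mono' cd _ _ _ _ 3 2 p).trans (by rw [ratOf_mone])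

theorem evP_G4 (cd : MC) (p : P4) : evP (G4 cd) p = F4 cd (p 1 - 1 / 4) (p 3 - 1 / 4) := by
  rw [G4, evP_sumP, F4]
  congr 1; funext σ c
  rw [evP_cons, evP_cons, evP_nil, add_zero]
  congr 1
  · exact (evM_mono' cd _ _ _ _ 1 3 p).trans (by rw [ratOf_one])
  · exact (evM_mono' cd _ _ _ _ 1 3 p).trans (by rw [ratOf_mone])

theorem evP_G5 (cd : MC) (p : P4) : evP (G5 cd) p = F5 cd (p 2 - 1 / 4) (p 3 - 1 / 4) := by
  rw [G5, evP_sumP, F5]
  congr 1; funext σ c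
  rw [evP_cons, evP_cons, evP_nil, add_zero]
  congr 1
  · exact (evM_mono' cd _ _ _ _ 3 2 p).trans (by rw [ratOf_one])
  · exact (evM_mono' cd _ _ _ _ 2 3 p).trans (by rw [ratOf_mone])

theorem evP_G6 (cd : MC) (p : P4) : evP (G6 cd) p = F6 cd (p 1 - 1 / 4) (p 2 - 1 / 4) := by
  rw [G6, evP_sumP, F6]
  congr 1; funext σ c
  rw [evP_cons, evP_nil, add_zero]
  exact (evM_mono' cd _ _ _ _ 1 2 p).trans (by rw [ratOf_mone])

theorem beq_true {a b : ℕ} (h : a = b) : Nat.beq a b = true := by rw [h]; exact Nat.beq_refl b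
theorem beq_false {a b : ℕ} (h : a ≠ b) : Nat.beq a b = false := by
  cases hb : Nat.beq a b
  · rfl
  · exact absurd (Nat.eq_of_beq_eq_true hb) h

section digits
variable {M : TM} {σ c : ℕ} (hσ : σ < nS2 M.code) (hc : c < KK M.code)
include hσ hc

theorem dig_wW : Dig (KK M.code) (wW σ c) :=
  Dig.cons (hσ.trans (nS2_le_KK _)) (Dig.cons hc (Dig.nil _))

theorem dig_pW : Dig (KK M.code) (pW σ c) := by
  unfold pW
  cases Nat.beq (σ % 2) 0
  · exact Dig.cons (hσ.trans (nS2_le_KK _)) (Dig.nil _)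
  · exact dig_wW hσ hc

theorem dig_qW : Dig (KK M.code) (qW σ c) := by
  unfold qW
  cases Nat.beq (σ % 2) 0
  · exact Dig.cons hc (Dig.nil _)
  · exact Dig.nil _

theorem dig_pT : Dig (KK M.code) (pT M.code σ c) := by
  have h1 := sg2_ee_lt M hσ hc
  have h2 := rr_lt M.code c hσ
  unfold pT
  cases Nat.beq (sg2 M.code σ c % 2) 0
  · exact Dig.cons (h1.1.trans (nS2_le_KK _)) (Dig.cons h2 (Dig.cons h1.2 (Dig.nil _)))
  · exact Dig.cons (h1.1.trans (nS2_le_KK _)) (Dig.nil _)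

theorem dig_qT : Dig (KK M.code) (qT M.code σ c) := by
  have h1 := sg2_ee_lt M hσ hc
  have h2 := rr_lt M.code c hσ
  unfold qT
  cases Nat.beq (sg2 M.code σ c % 2) 0
  · exact Dig.nil _
  · exact Dig.cons h2 (Dig.cons h1.2 (Dig.nil _))

end digits

theorem sep_w {σ c σ' c' : ℕ} (h : ¬(σ = σ' ∧ c = c')) : Sep (wW σ c) (wW σ' c') := by
  simp only [wW, Sep]; tauto

theorem sep_src {σ c σ' c' : ℕ} (h : ¬(σ = σ' ∧ c = c')) :
    Sep (pW σ c) (pW σ' c') ∨ Sep (qW σ c) (qW σ' c') := by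
  by_cases hs : σ = σ'
  · subst hs
    have hc : c ≠ c' := fun hc => h ⟨rfl, hc⟩
    unfold pW qW
    cases Nat.beq (σ % 2) 0
    · right; simp only [cond_false, Sep]; tauto
    · left; simp only [cond_true, Sep]; tauto
  · left
    unfold pW
    cases Nat.beq (σ % 2) 0 <;> cases Nat.beq (σ' % 2) 0 <;>
      simp only [cond_true, cond_false, Sep] <;> tauto

theorem sep_tgt (cd : MC) {σ c σ' c' : ℕ} (h : ¬(σ = σ' ∧ c = c')) :
    Sep (pT cd σ c) (pT cd σ' c') ∨ Sep (qT cd σ c) (qT cd σ' c') := by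
  by_cases hs : sg2 cd σ c = sg2 cd σ' c'
  · have hc : rr cd σ c ≠ rr cd σ' c' ∨ ee cd σ c ≠ ee cd σ' c' := by
      by_contra hh
      push Not at hh
      exact h (rr_inj cd hh.1 hh.2)
    unfold pT qT
    rw [← hs]
    cases Nat.beq (sg2 cd σ c % 2) 0
    · left; simp only [cond_false, Sep]; tauto
    · right; simp only [cond_true, Sep]; tauto
  · left
    unfold pT
    cases Nat.beq (sg2 cd σ c % 2) 0 <;> cases Nat.beq (sg2 cd σ' c' % 2) 0 <;>
      simp only [cond_true, cond_false, Sep] <;> tauto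

section values
variable {M : TM} {σ c : ℕ} (hσ : σ < nS2 M.code) (hc : c < KK M.code) {ξ η : ℝ}
  (hξ : Half ξ) (hη : Half η)

theorem B_ne (cd : MC) : (2 * KK cd : ℝ) ≠ 0 := by
  have : (5 : ℝ) ≤ KK cd := by exact_mod_cast five_le_KK cd
  linarith

include hσ hc hξ hη

theorem F2_val : F2 M.code (enc (2 * KK M.code) (pW σ c) ξ) (enc (2 * KK M.code) (qW σ c) η) =
    enc (2 * KK M.code) (hW M.code σ c) ξ := by
  rw [F2, sum2_single hσ hc, trm_hit (B_ne _) _ _ _ _ hξ hη, one_mul]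
  intro σ' hσ' c' hc' h
  exact trm_miss _ _ hξ hη (dig_pW hσ' hc') (dig_qW hσ' hc') (dig_pW hσ hc) (dig_qW hσ hc)
    (sep_src h)

theorem F3_val : F3 M.code (enc (2 * KK M.code) (qW σ c) η) (enc (2 * KK M.code) (wW σ c) ξ) =
    η - enc (2 * KK M.code) (pW σ c) ξ := by
  rw [F3, sum2_single hσ hc, trm_hit (B_ne _) _ _ _ _ hη hξ, trm_hit (B_ne _) _ _ _ _ hξ hη]
  · simp only [enc]; ring
  intro σ' hσ' c' hc' h
  rw [trm_miss _ _ hη hξ (dig_qW hσ' hc') (dig_wW hσ' hc') (dig_qW hσ hc) (dig_wW hσ hc)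
    (Or.inr (sep_w h)), trm_miss _ _ hξ hη (dig_wW hσ' hc') (dig_qW hσ' hc') (dig_wW hσ hc)
    (dig_qW hσ hc) (Or.inl (sep_w h)), add_zero]

theorem F4_val : F4 M.code η (enc (2 * KK M.code) (wW σ c) ξ) =
    enc (2 * KK M.code) (qT M.code σ c) η - enc (2 * KK M.code) (qW σ c) η := by
  have e : η = enc (2 * KK M.code) [] η := rfl
  rw [F4, sum2_single hσ hc]
  · nth_rewrite 1 [e]
    nth_rewrite 2 [e]
    rw [trm_hit (B_ne _) _ _ _ _ hη hξ, trm_hit (B_ne _) _ _ _ _ hη hξ]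
    ring
  intro σ' hσ' c' hc' h
  rw [e, trm_miss _ _ hη hξ (Dig.nil _) (dig_wW hσ' hc') (Dig.nil _) (dig_wW hσ hc)
    (Or.inr (sep_w h)), trm_miss _ _ hη hξ (Dig.nil _) (dig_wW hσ' hc') (Dig.nil _)
    (dig_wW hσ hc) (Or.inr (sep_w h)), add_zero]

theorem F5_val :
    F5 M.code (enc (2 * KK M.code) (qT M.code σ c) η) (enc (2 * KK M.code) (wW σ c) ξ) =
    enc (2 * KK M.code) (pT M.code σ c) ξ - η := by
  rw [F5, sum2_single hσ hc, trm_hit (B_ne _) _ _ _ _ hξ hη, trm_hit (B_ne _) _ _ _ _ hη hξ]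
  · simp only [enc]; ring
  intro σ' hσ' c' hc' h
  rw [trm_miss _ _ hξ hη (dig_wW hσ' hc') (dig_qT hσ' hc') (dig_wW hσ hc) (dig_qT hσ hc)
    (Or.inl (sep_w h)), trm_miss _ _ hη hξ (dig_qT hσ' hc') (dig_wW hσ' hc') (dig_qT hσ hc)
    (dig_wW hσ hc) (Or.inr (sep_w h)), add_zero]

theorem F6_val : F6 M.code (enc (2 * KK M.code) (pT M.code σ c) ξ)
    (enc (2 * KK M.code) (qT M.code σ c) η) = - enc (2 * KK M.code) (wW σ c) ξ := by
  rw [F6, sum2_single hσ hc, trm_hit (B_ne _) _ _ _ _ hξ hη, neg_one_mul]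
  intro σ' hσ' c' hc' h
  exact trm_miss _ _ hξ hη (dig_pT hσ' hc') (dig_qT hσ' hc') (dig_pT hσ hc) (dig_qT hσ hc)
    (sep_tgt _ h)

end values

theorem good_GP (M : TM) (i : ℕ) : Good (evP (GP M.code i)) := by
  have g2 : Good fun p => F2 M.code (p 1 - 1 / 4) (p 2 - 1 / 4) :=
    sum2_good fun σ hσ c hc => trm_good _ _ (dig_pW hσ hc) (dig_qW hσ hc) 1 2
  have g3 : Good fun p => F3 M.code (p 2 - 1 / 4) (p 3 - 1 / 4) :=
    sum2_good fun σ hσ c hc => (trm_good _ _ (dig_qW hσ hc) (dig_wW hσ hc) 2 3).add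
      (trm_good _ _ (dig_wW hσ hc) (dig_qW hσ hc) 3 2)
  have g4 : Good fun p => F4 M.code (p 1 - 1 / 4) (p 3 - 1 / 4) :=
    sum2_good fun σ hσ c hc => (trm_good _ _ (Dig.nil _) (dig_wW hσ hc) 1 3).add
      (trm_good _ _ (Dig.nil _) (dig_wW hσ hc) 1 3)
  have g5 : Good fun p => F5 M.code (p 2 - 1 / 4) (p 3 - 1 / 4) :=
    sum2_good fun σ hσ c hc => (trm_good _ _ (dig_wW hσ hc) (dig_qT hσ hc) 3 2).add
      (trm_good _ _ (dig_qT hσ hc) (dig_wW hσ hc) 2 3)
  have g6 : Good fun p => F6 M.code (p 1 - 1 / 4) (p 2 - 1 / 4) :=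
    sum2_good fun σ hσ c hc => trm_good _ _ (dig_pT hσ hc) (dig_qT hσ hc) 1 2
  have e : evP (GP M.code i) = fun p => evP (GP M.code i) p := rfl
  rw [e]
  unfold GP
  cases Nat.beq i 0
  · cases Nat.beq i 1
    · simp only [cond_false, evP_append, evP_mulP, evP_bP, evP_G2, evP_G6]
      exact ((beta_good (by norm_num) (by norm_num)).mul g2).add
        ((beta_good (by norm_num) (by norm_num)).mul g6)
    · simp only [cond_false, cond_true, evP_mulP, evP_bP, evP_G4]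
      exact (beta_good (by norm_num) (by norm_num)).mul g4
  · simp only [cond_true, evP_append, evP_mulP, evP_bP, evP_G3, evP_G5]
    exact ((beta_good (by norm_num) (by norm_num)).mul g3).add
      ((beta_good (by norm_num) (by norm_num)).mul g5)

theorem enc_headD {B : ℝ} (l : List ℕ) : enc B (l.headD 0 :: l.tail) 0 = enc B l 0 := by
  cases l with
  | nil => simp [enc]
  | cons a l => rfl

theorem enc_src (B : ℝ) (μ : MCfg) :
    enc B (μ.1 :: μ.2.1) 0 = enc B (pW μ.1 (top μ)) (enc B (restL μ) 0) ∧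
    enc B μ.2.2 0 = enc B (qW μ.1 (top μ)) (enc B (restR μ) 0) := by
  by_cases h : μ.1 % 2 = 0
  · simp only [pW, qW, top, restL, restR, beq_true h, h, if_true, cond_true]
    refine ⟨?_, rfl⟩
    rw [enc, ← enc_headD μ.2.1]
    rfl
  · simp only [pW, qW, top, restL, restR, beq_false h, h, if_false, cond_false]
    refine ⟨rfl, ?_⟩
    rw [← enc_headD μ.2.2]
    rfl

theorem enc_tgt (B : ℝ) (cd : MC) (μ : MCfg) :
    enc B ((next cd μ).1 :: (next cd μ).2.1) 0 =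
      enc B (pT cd μ.1 (top μ)) (enc B (restL μ) 0) ∧
    enc B (next cd μ).2.2 0 = enc B (qT cd μ.1 (top μ)) (enc B (restR μ) 0) := by
  by_cases h : sg2 cd μ.1 (top μ) % 2 = 0
  · simp only [pT, qT, next, beq_true h, h, if_true, cond_true]
    exact ⟨rfl, rfl⟩
  · simp only [pT, qT, next, beq_false h, h, if_false, cond_false]
    exact ⟨rfl, rfl⟩

end Vale.Agent.P113
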