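import Vale.Agent.P113.Per

/-! Shear flows: classical solutions and exact trajectories. -/

namespace Vale.Agent.P113

open Filter Topology Set
open scoped ContDiff

theorem contDiff_cons : ContDiff ℝ ∞ (fun z : ℝ × V => (Fin.cons z.1 z.2 : P4)) := by
  rw [contDiff_pi]
  intro j
  refine Fin.cases ?_ (fun j => ?_) j
  · simpa using contDiff_fst
  · simp only [Fin.cons_succ]
    exact (contDiff_apply ℝ ℝ j).comp contDiff_snd

theorem hasDerivAt_time {U : P4 → ℝ} (hU : ContDiff ℝ ∞ U) (t : ℝ) (x : V) :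
    HasDerivAt (fun s => U (Fin.cons s x)) (mixed [0] U (Fin.cons t x)) t := by
  have h1 : HasDerivAt (fun s : ℝ => (Fin.cons s x : P4)) (Pi.single 0 1) t := by
    rw [hasDerivAt_pi]
    intro j
    refine Fin.cases ?_ (fun j => ?_) j
    · simp only [Fin.cons_zero, Pi.single_eq_same]
      exact hasDerivAt_id t
    · simp only [Fin.cons_succ]
      rw [Pi.single_eq_of_ne (Fin.succ_ne_zero j)]
      exact hasDerivAt_const _ _
  exact (hU.differentiable (by simp) _).hasFDerivAt.comp_hasDerivAt t h1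

theorem hasCoordDeriv_cons {U : P4 → ℝ} (hU : ContDiff ℝ ∞ U) (t : ℝ) (j : Fin 3) :
    HasCoordDeriv j (fun x => U (Fin.cons t x)) (fun x => mixed [j.succ] U (Fin.cons t x)) := by
  intro x
  have h1 : HasDerivAt (fun h : ℝ => (Fin.cons t (x + Pi.single j h) : P4))
      (Pi.single j.succ 1) 0 := by
    rw [hasDerivAt_pi]
    intro i
    refine Fin.cases ?_ (fun i => ?_) i
    · simp only [Fin.cons_zero]
      rw [Pi.single_eq_of_ne (Fin.succ_ne_zero j).symm]
      exact hasDerivAt_const _ _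
    · simp only [Fin.cons_succ, Pi.add_apply]
      by_cases hij : i = j
      · subst hij
        simp only [Pi.single_eq_same]
        exact (hasDerivAt_id (0 : ℝ)).const_add _
      · have : i.succ ≠ j.succ := fun h => hij (Fin.succ_injective _ h)
        simp only [Pi.single_eq_of_ne hij, Pi.single_eq_of_ne this]
        exact hasDerivAt_const _ _
  have h2 : HasFDerivAt U (fderiv ℝ U (Fin.cons t x))
      ((fun h : ℝ => (Fin.cons t (x + Pi.single j h) : P4)) 0) := by
    simpa using (hU.differentiable (by simp) _).hasFDerivAt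
  exact h2.comp_hasDerivAt (0 : ℝ) h1

theorem coordDeriv_zero {j : Fin 3} {g g' : V → ℝ} (h : HasCoordDeriv j g g')
    (hc : ∀ x s, g (x + Pi.single j s) = g x) (x : V) : g' x = 0 := by
  have h1 := h x
  simp only [hc] at h1
  exact h1.unique (hasDerivAt_const _ _)

theorem contOn_of_contDiff {U : P4 → ℝ} (hU : ContDiff ℝ ∞ U) (T : ℝ) :
    ContOn T (fun t x => U (Fin.cons t x)) :=
  (hU.comp contDiff_cons).continuous.continuousOn

theorem shear_classical (ν : ℝ) (U : Fin 3 → P4 → ℝ) (hU : ∀ i, ContDiff ℝ ∞ (U i))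
    (hper : ∀ t, Periodic3 (fun x i => U i (Fin.cons t x)))
    (h0 : ∀ i x, U i (Fin.cons 0 x) = 0)
    (hsh : ∀ t, 0 ≤ t → ∃ k : Fin 3, (∀ i, i ≠ k → ∀ x, U i (Fin.cons t x) = 0) ∧
      ∀ x s, U k (Fin.cons t (x + Pi.single k s)) = U k (Fin.cons t x)) (T : ℝ) :
    IsClassical ν (fun t x i => FF ν (U i) (Fin.cons t x)) T
      (fun t x i => U i (Fin.cons t x)) (fun _ _ => 0) := by
  refine ⟨fun i t x => mixed [0] (U i) (Fin.cons t x),
    fun i j t x => mixed [j.succ] (U i) (Fin.cons t x),
    fun i j k t x => mixed [k.succ] (mixed [j.succ] (U i)) (Fin.cons t x),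
    fun _ _ _ => 0, ?_, ?_, ?_, ?_, ?_, ?_, ?_, ?_, ?_, ?_, ?_, ?_, ?_, ?_, ?_⟩
  · exact fun t _ => ⟨hper t, fun _ _ => rfl⟩
  · exact fun i t _ x => (hasDerivAt_time (hU i) t x).hasDerivWithinAt
  · exact fun i j t _ => hasCoordDeriv_cons (hU i) t j
  · exact fun i j k t _ => hasCoordDeriv_cons (mixed_contDiff _ (hU i)) t k
  · exact fun j t _ x => hasDerivAt_const _ _
  · exact fun i => contOn_of_contDiff (hU i) T
  · exact fun i => contOn_of_contDiff (mixed_contDiff _ (hU i)) T
  · exact fun i j => contOn_of_contDiff (mixed_contDiff _ (hU i)) T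
  · exact fun i j k => contOn_of_contDiff (mixed_contDiff _ (mixed_contDiff _ (hU i))) T
  · exact continuousOn_const
  · exact fun j => continuousOn_const
  · intro i t ht x
    obtain ⟨k, hk1, hk2⟩ := hsh t ht.1
    have e : ∑ j, U j (Fin.cons t x) * mixed [j.succ] (U i) (Fin.cons t x) = 0 := by
      refine Finset.sum_eq_zero fun j _ => ?_
      by_cases hj : j = k
      · subst hj
        have := coordDeriv_zero (hasCoordDeriv_cons (hU i) t j) (fun x s => by
          by_cases hi : i = j
          · subst hi; exact hk2 x s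
          · rw [hk1 i hi, hk1 i hi]) x
        rw [this, mul_zero]
      · rw [hk1 j hj, zero_mul]
    simp only [e, FF, Fin.sum_univ_three]
    have e1 : mixed [Fin.succ (0 : Fin 3)] (mixed [Fin.succ (0 : Fin 3)] (U i)) =
      mixed [1, 1] (U i) := rfl
    have e2 : mixed [Fin.succ (1 : Fin 3)] (mixed [Fin.succ (1 : Fin 3)] (U i)) =
      mixed [2, 2] (U i) := rfl
    have e3 : mixed [Fin.succ (2 : Fin 3)] (mixed [Fin.succ (2 : Fin 3)] (U i)) =
      mixed [3, 3] (U i) := rfl
    rw [e1, e2, e3]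
    ring
  · intro t ht x
    obtain ⟨k, hk1, hk2⟩ := hsh t ht.1
    refine Finset.sum_eq_zero fun j _ => ?_
    exact coordDeriv_zero (hasCoordDeriv_cons (hU j) t j) (fun x s => by
      by_cases hj : j = k
      · subst hj; exact hk2 x s
      · rw [hk1 j hj, hk1 j hj]) x
  · intro x; funext i; exact h0 i x
  · intro t _; simp

/-- Time profile of slot `n`. -/
noncomputable def psi (n : ℕ) (t : ℝ) : ℝ := Real.smoothTransition (32 * t - (4 * n + 1))
noncomputable def beta (n : ℕ) (t : ℝ) : ℝ := deriv (psi n) t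

theorem psi_hasDerivAt (n : ℕ) (t : ℝ) : HasDerivAt (psi n) (beta n t) t := by
  have : ContDiff ℝ ∞ (psi n) :=
    Real.smoothTransition.contDiff.comp ((contDiff_const.mul contDiff_id).sub contDiff_const)
  exact (this.differentiable (by simp) t).hasDerivAt

theorem psi_zero {n : ℕ} {t : ℝ} (h : 32 * t ≤ 4 * n + 1) : psi n t = 0 :=
  Real.smoothTransition.zero_of_nonpos (by linarith)

theorem psi_one {n : ℕ} {t : ℝ} (h : 4 * n + 2 ≤ 32 * t) : psi n t = 1 :=
  Real.smoothTransition.one_of_one_le (by linarith)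

theorem psi_nonneg (n : ℕ) (t : ℝ) : 0 ≤ psi n t := Real.smoothTransition.nonneg _
theorem psi_le_one (n : ℕ) (t : ℝ) : psi n t ≤ 1 := Real.smoothTransition.le_one _

theorem beta_zero_lt {n : ℕ} {t : ℝ} (h : 32 * t < 4 * n + 1) : beta n t = 0 := by
  have h1 : psi n =ᶠ[𝓝 t] fun _ => 0 := by
    have : ∀ᶠ s in 𝓝 t, 32 * s < 4 * (n : ℝ) + 1 :=
      (continuous_const.mul continuous_id).continuousAt.eventually_lt continuousAt_const h
    filter_upwards [this] with s hs using psi_zero hs.le
  rw [beta, h1.deriv_eq, deriv_const]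

theorem beta_zero_gt {n : ℕ} {t : ℝ} (h : 4 * n + 2 < 32 * t) : beta n t = 0 := by
  have h1 : psi n =ᶠ[𝓝 t] fun _ => 1 := by
    have : ∀ᶠ s in 𝓝 t, 4 * (n : ℝ) + 2 < 32 * s :=
      continuousAt_const.eventually_lt (continuous_const.mul continuous_id).continuousAt h
    filter_upwards [this] with s hs using psi_one hs.le
  rw [beta, h1.deriv_eq, deriv_const]

theorem beta_add (n m : ℕ) (t : ℝ) : beta (n + 8 * m) (t + m) = beta n t := by
  have : (fun s => psi (n + 8 * m) (s + m)) = psi n := by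
    funext s; simp only [psi]; congr 1; push_cast; ring
  rw [beta, beta, ← this, deriv_comp_add_const]

/-- Positions at the ends of the slots. -/
noncomputable def pos (a : V) (ax : ℕ → Fin 3) (g : ℕ → V → ℝ) : ℕ → V
  | 0 => a
  | n + 1 => pos a ax g n + Pi.single (ax n) (g n (pos a ax g n))

section traj

variable {u : ℝ → V → V} {ax : ℕ → Fin 3} {g : ℕ → V → ℝ}
  (hg : ∀ n x s, g n (x + Pi.single (ax n) s) = g n x)
  (hu : ∀ (n : ℕ) (t : ℝ), (n : ℝ) ≤ 8 * t → 8 * t ≤ n + 1 → ∀ x,
    u t x = Pi.single (ax n) (beta n t * g n x))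

include hg hu

theorem traj_slot {a : V} {X : ℝ → V} (hX : IsTrajectory u a X) (n : ℕ) (t : ℝ)
    (h1 : (n : ℝ) ≤ 8 * t) (h2 : 8 * t ≤ n + 1) :
    X t = X (n / 8) + Pi.single (ax n) (psi n t * g n (X (n / 8))) := by
  have hn0 : (0 : ℝ) ≤ n / 8 := by positivity
  have hd : ∀ s, 0 ≤ s → ∀ j, HasDerivWithinAt (fun s => X s j) (u s (X s) j) (Ici 0) s :=
    fun s hs j => (hasDerivWithinAt_pi.1 (hX.2 s hs)) j
  have hcont : ∀ j, ContinuousOn (fun s => X s j) (Icc (n / 8 : ℝ) ((n + 1) / 8)) := by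
    intro j s hs
    exact ((hd s (hn0.trans hs.1) j).continuousWithinAt).mono fun r hr => hn0.trans hr.1
  have hoth : ∀ j, j ≠ ax n → ∀ s ∈ Icc (n / 8 : ℝ) ((n + 1) / 8), X s j = X (n / 8) j := by
    intro j hj
    refine constant_of_has_deriv_right_zero (hcont j) fun s hs => ?_
    have := hd s (hn0.trans hs.1) j
    rw [hu n s (by linarith [hs.1]) (by linarith [hs.2]), Pi.single_eq_of_ne hj] at this
    exact this.mono fun r hr => (hn0.trans hs.1).trans hr
  have hgc : ∀ s ∈ Icc (n / 8 : ℝ) ((n + 1) / 8), g n (X s) = g n (X (n / 8)) := by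
    intro s hs
    rw [← hg n (X (n / 8)) (X s (ax n) - X (n / 8) (ax n))]
    congr 1
    funext j
    by_cases hj : j = ax n
    · subst hj; simp
    · simp [Pi.single_eq_of_ne hj, hoth j hj s hs]
  have hmain : ∀ s ∈ Icc (n / 8 : ℝ) ((n + 1) / 8),
      X s (ax n) - psi n s * g n (X (n / 8)) =
        X (n / 8) (ax n) - psi n (n / 8) * g n (X (n / 8)) := by
    refine constant_of_has_deriv_right_zero (f := fun s => X s (ax n) - psi n s * g n (X (n / 8)))
      ((hcont _).sub (fun s _ => ((psi_hasDerivAt n s).continuousAt.mul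
        continuousAt_const).continuousWithinAt)) fun s hs => ?_
    have := hd s (hn0.trans hs.1) (ax n)
    rw [hu n s (by linarith [hs.1]) (by linarith [hs.2]), Pi.single_eq_same,
      hgc s (Ico_subset_Icc_self hs)] at this
    have h3 := (this.mono (fun r hr => (hn0.trans hs.1).trans hr : Ici s ⊆ Ici 0)).sub
      ((psi_hasDerivAt n s).mul_const (g n (X (n / 8)))).hasDerivWithinAt
    rw [sub_self] at h3
    exact h3
  have ht : t ∈ Icc (n / 8 : ℝ) ((n + 1) / 8) := ⟨by linarith, by linarith⟩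
  funext j
  by_cases hj : j = ax n
  · subst hj
    have := hmain t ht
    rw [psi_zero (t := n / 8) (by linarith)] at this
    simp only [Pi.add_apply, Pi.single_eq_same]
    linarith
  · simp [Pi.single_eq_of_ne hj, hoth j hj t ht]

theorem traj_pos {a : V} {X : ℝ → V} (hX : IsTrajectory u a X) (n : ℕ) :
    X (n / 8) = pos a ax g n := by
  induction n with
  | zero => simpa [pos] using hX.1
  | succ n ih =>
    rw [traj_slot hg hu hX n _ (by push_cast; linarith) (by push_cast; linarith), ih,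
      psi_one (by push_cast; linarith), one_mul, pos]

theorem traj_between {a : V} {X : ℝ → V} (hX : IsTrajectory u a X) (t : ℝ) (ht : 0 ≤ t) :
    ∃ (n : ℕ) (θ : ℝ), 0 ≤ θ ∧ θ ≤ 1 ∧
      ∀ j, X t j = (1 - θ) * pos a ax g n j + θ * pos a ax g (n + 1) j := by
  refine ⟨⌊8 * t⌋₊, psi ⌊8 * t⌋₊ t, psi_nonneg _ _, psi_le_one _ _, fun j => ?_⟩
  rw [traj_slot hg hu hX ⌊8 * t⌋₊ t (Nat.floor_le (by linarith)) (Nat.lt_floor_add_one _).le,
    traj_pos hg hu hX, pos]
  by_cases hj : j = ax ⌊8 * t⌋₊
  · rw [hj]; simp only [Pi.add_apply, Pi.single_eq_same]; ring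
  · simp only [Pi.add_apply, Pi.single_eq_of_ne hj]; ring

theorem traj_exists (a : V) : ∃ X, IsTrajectory u a X := by
  let d : ℕ → V := fun n => Pi.single (ax n) (g n (pos a ax g n))
  let Y : ℕ → ℝ → V := fun N t => a + ∑ n ∈ Finset.range N, psi n t • d n
  have hY : ∀ (N : ℕ) (t : ℝ), 8 * t ≤ N → ∀ k, Y (N + k) t = Y N t := by
    intro N t h k
    induction k with
    | zero => rfl
    | succ k ih =>
      rw [← ih]
      simp only [Y]
      rw [← add_assoc, Finset.sum_range_succ, psi_zero (n := N + k) (by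
        push_cast; have : (0 : ℝ) ≤ k := Nat.cast_nonneg k; linarith), zero_smul, add_zero]
  have hP : ∀ (N : ℕ) (t : ℝ), (N : ℝ) ≤ 8 * t → Y N t = pos a ax g N := by
    intro N t
    induction N with
    | zero => intro _; simp [Y, pos]
    | succ N ih =>
      intro h
      push_cast at h
      have := ih (by linarith)
      simp only [Y] at this ⊢
      rw [Finset.sum_range_succ, ← add_assoc, this, psi_one (by linarith), one_smul, pos]
  refine ⟨fun t => Y (⌊8 * t⌋₊ + 1) t, ?_, fun t ht => ?_⟩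
  · simp only [mul_zero, Nat.floor_zero]
    have := hY 0 0 (by simp) 1
    rw [this]
    simp [Y]
  · set n := ⌊8 * t⌋₊ with hn
    have hn1 : (n : ℝ) ≤ 8 * t := Nat.floor_le (by linarith)
    have hn2 : 8 * t < n + 1 := Nat.lt_floor_add_one _
    have hev : (fun s => Y (⌊8 * s⌋₊ + 1) s) =ᶠ[𝓝 t] Y (n + 1) := by
      have : ∀ᶠ s in 𝓝 t, 8 * s < (n : ℝ) + 1 :=
        (continuous_const.mul continuous_id).continuousAt.eventually_lt continuousAt_const hn2
      filter_upwards [this] with s hs
      have h3 : ⌊8 * s⌋₊ ≤ n := by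
        apply Nat.le_of_lt_succ
        rw [Nat.floor_lt' (Nat.succ_ne_zero n)]
        push_cast; exact hs
      obtain ⟨k, hk⟩ := Nat.exists_eq_add_of_le h3
      have := hY (⌊8 * s⌋₊ + 1) s (by push_cast; exact (Nat.lt_floor_add_one _).le) k
      rw [← this, hk]
      congr 1
      omega
    have hder : HasDerivAt (Y (n + 1)) (∑ m ∈ Finset.range (n + 1), beta m t • d m) t := by
      simp only [Y]
      exact (HasDerivAt.fun_sum fun m _ => (psi_hasDerivAt m t).smul_const (d m)).const_add a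
    have hsum : ∑ m ∈ Finset.range (n + 1), beta m t • d m = beta n t • d n := by
      rw [Finset.sum_range_succ, Finset.sum_eq_zero, zero_add]
      intro m hm
      have : (m : ℝ) + 1 ≤ n := by exact_mod_cast Finset.mem_range.1 hm
      rw [beta_zero_gt (by linarith), zero_smul]
    have hval : Y (n + 1) t = pos a ax g n + Pi.single (ax n) (psi n t * g n (pos a ax g n)) := by
      have := hP n t hn1
      simp only [Y] at this ⊢
      rw [Finset.sum_range_succ, ← add_assoc, this]
      simp only [d, ← Pi.single_smul, smul_eq_mul]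
    rw [hu n t hn1 hn2.le]
    change HasDerivWithinAt _ (Pi.single (ax n) (beta n t * g n (Y (n + 1) t)) : V) _ _
    rw [hval, hg]
    rw [hsum] at hder
    have e : beta n t • d n = Pi.single (ax n) (beta n t * g n (pos a ax g n)) := by
      simp only [d, ← Pi.single_smul, smul_eq_mul]
    rw [e] at hder
    exact (hder.congr_of_eventuallyEq hev).hasDerivWithinAt

end traj

end Vale.Agent.P113
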