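import Vale.Agent.P113.Shear

/-! Words in base `B`, their encodings, cut-offs and the basic monomials. -/

namespace Vale.Agent.P113

open Filter Topology Set

noncomputable def enc (B : ℝ) : List ℕ → ℝ → ℝ
  | [], ξ => ξ
  | c :: ω, ξ => (c + enc B ω ξ) / B

noncomputable def dec (B : ℝ) : List ℕ → ℝ → ℝ
  | [], x => x
  | c :: ω, x => dec B ω (B * x - c)

noncomputable def chi (A : ℝ) : ℝ :=
  Real.smoothTransition (8 * A + 1) * Real.smoothTransition (-8 * A + 5)

def Dig (K : ℕ) (ω : List ℕ) : Prop := ∀ x ∈ ω, x < K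

def Half (ξ : ℝ) : Prop := 0 ≤ ξ ∧ ξ ≤ 1 / 2

theorem Dig.nil (K : ℕ) : Dig K [] := by intro x hx; simp at hx
theorem Dig.cons {K c : ℕ} {ω : List ℕ} (hc : c < K) (h : Dig K ω) : Dig K (c :: ω) := by
  intro x hx
  rcases List.mem_cons.1 hx with rfl | hx
  · exact hc
  · exact h x hx
theorem Dig.head {K c : ℕ} {ω : List ℕ} (h : Dig K (c :: ω)) : c < K := h c (by simp)
theorem Dig.tail {K c : ℕ} {ω : List ℕ} (h : Dig K (c :: ω)) : Dig K ω :=
  fun x hx => h x (List.mem_cons_of_mem _ hx)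

theorem dec_enc {B : ℝ} (hB : B ≠ 0) (ω : List ℕ) (ξ : ℝ) : dec B ω (enc B ω ξ) = ξ := by
  induction ω with
  | nil => rfl
  | cons c ω ih =>
    simp only [enc, dec]
    have : B * ((c + enc B ω ξ) / B) - c = enc B ω ξ := by field_simp; ring
    rw [this, ih]

theorem enc_half {K : ℕ} {ω : List ℕ} (h : Dig K ω) {ξ : ℝ} (hξ : Half ξ) :
    Half (enc (2 * K) ω ξ) := by
  induction ω with
  | nil => exact hξ
  | cons c ω ih =>
    obtain ⟨h1, h2⟩ := ih h.tail
    have hc : (c : ℝ) + 1 ≤ K := by exact_mod_cast h.head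
    have hc0 : (0 : ℝ) ≤ c := Nat.cast_nonneg c
    have hK : (0 : ℝ) < 2 * K := by linarith
    simp only [enc]
    refine ⟨div_nonneg (by linarith) hK.le, ?_⟩
    rw [div_le_iff₀ hK]
    linarith

theorem dec_low {K : ℕ} {ω : List ℕ} (h : Dig K ω) {x : ℝ} (hx : x ≤ -1 / 8) :
    dec (2 * K) ω x ≤ -1 / 8 := by
  induction ω generalizing x with
  | nil => exact hx
  | cons c ω ih =>
    refine ih h.tail ?_
    have hc : (c : ℝ) + 1 ≤ K := by exact_mod_cast h.head
    have hc0 : (0 : ℝ) ≤ c := Nat.cast_nonneg c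
    nlinarith

theorem dec_high {K : ℕ} {ω : List ℕ} (h : Dig K ω) {x : ℝ} (hx : 5 / 8 ≤ x) :
    5 / 8 ≤ dec (2 * K) ω x := by
  induction ω generalizing x with
  | nil => exact hx
  | cons c ω ih =>
    refine ih h.tail ?_
    have hc : (c : ℝ) + 1 ≤ K := by exact_mod_cast h.head
    have hc0 : (0 : ℝ) ≤ c := Nat.cast_nonneg c
    nlinarith

theorem chi_one {A : ℝ} (h : Half A) : chi A = 1 := by
  rw [chi, Real.smoothTransition.one_of_one_le (by linarith [h.1]),
    Real.smoothTransition.one_of_one_le (by linarith [h.2]), mul_one]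

theorem chi_low {A : ℝ} (h : A ≤ -1 / 8) : chi A = 0 := by
  rw [chi, Real.smoothTransition.zero_of_nonpos (by linarith), zero_mul]

theorem chi_high {A : ℝ} (h : 5 / 8 ≤ A) : chi A = 0 := by
  rw [chi, Real.smoothTransition.zero_of_nonpos (x := -8 * A + 5) (by linarith), mul_zero]

/-- Two words differ at a common position. -/
def Sep : List ℕ → List ℕ → Prop
  | c :: ω, c' :: ω' => c ≠ c' ∨ Sep ω ω'
  | _, _ => False

theorem chi_sep {K : ℕ} {ω ω' : List ℕ} (hs : Sep ω ω') (h : Dig K ω) (h' : Dig K ω') {ξ : ℝ}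
    (hξ : Half ξ) : chi (dec (2 * K) ω' (enc (2 * K) ω ξ)) = 0 := by
  induction ω generalizing ω' with
  | nil => exact absurd hs (by simp [Sep])
  | cons c ω ih =>
    cases ω' with
    | nil => exact absurd hs (by simp [Sep])
    | cons c' ω' =>
      have hc : (c : ℝ) + 1 ≤ K := by exact_mod_cast h.head
      have hc0 : (0 : ℝ) ≤ c := Nat.cast_nonneg c
      have hK : (2 * K : ℝ) ≠ 0 := by linarith
      obtain ⟨h1, h2⟩ := enc_half h.tail hξ
      simp only [enc, dec]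
      have e : 2 * (K : ℝ) * ((c + enc (2 * K) ω ξ) / (2 * K)) - c' =
        c - c' + enc (2 * K) ω ξ := by rw [mul_div_cancel₀ _ hK]; ring
      rw [e]
      rcases lt_trichotomy c c' with hl | hl | hl
      · have : (c : ℝ) + 1 ≤ c' := by exact_mod_cast hl
        exact chi_low (dec_low h'.tail (by linarith))
      · subst hl
        rw [sub_self, zero_add]
        exact ih (hs.resolve_left (by simp)) h.tail h'.tail
      · have : (c' : ℝ) + 1 ≤ c := by exact_mod_cast hl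
        exact chi_high (dec_high h'.tail (by linarith))

noncomputable def trm (B sg : ℝ) (ω₂ ω : List ℕ) (X : ℝ) (ω' : List ℕ) (Y : ℝ) : ℝ :=
  (sg * enc B ω₂ (dec B ω X) * chi (dec B ω X)) * chi (dec B ω' Y)

theorem trm_hit {B : ℝ} (hB : B ≠ 0) (sg : ℝ) (ω₂ ω ω' : List ℕ) {ξ η : ℝ} (hξ : Half ξ)
    (hη : Half η) : trm B sg ω₂ ω (enc B ω ξ) ω' (enc B ω' η) = sg * enc B ω₂ ξ := by
  simp only [trm, dec_enc hB, chi_one hξ, chi_one hη, mul_one]

theorem trm_miss {K : ℕ} (sg : ℝ) (ω₂ : List ℕ) {ω ω' υ υ' : List ℕ} {ξ η : ℝ} (hξ : Half ξ)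
    (hη : Half η) (h1 : Dig K ω) (h2 : Dig K ω') (h3 : Dig K υ) (h4 : Dig K υ')
    (hs : Sep υ ω ∨ Sep υ' ω') :
    trm (2 * K) sg ω₂ ω (enc (2 * K) υ ξ) ω' (enc (2 * K) υ' η) = 0 := by
  rcases hs with hs | hs
  · simp only [trm, chi_sep hs h3 h1 hξ, mul_zero, zero_mul]
  · simp only [trm, chi_sep hs h4 h2 hη, mul_zero]

theorem trm_good {K : ℕ} (sg : ℝ) (ω₂ : List ℕ) {ω ω' : List ℕ} (h1 : Dig K ω) (h2 : Dig K ω')
    (j j' : Fin 4) : Good fun p => trm (2 * K) sg ω₂ ω (p j - 1 / 4) ω' (p j' - 1 / 4) := by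
  refine Good.mul (Good.coord j (φ := fun x => sg * enc (2 * K) ω₂ (dec (2 * K) ω (x - 1 / 4)) *
    chi (dec (2 * K) ω (x - 1 / 4))) ?_ ?_)
    (Good.coord j' (φ := fun x => chi (dec (2 * K) ω' (x - 1 / 4))) ?_ ?_)
  · intro x hx; simp only [chi_low (dec_low h1 (x := x - 1 / 4) (by linarith)), mul_zero]
  · intro x hx; simp only [chi_high (dec_high h1 (x := x - 1 / 4) (by linarith)), mul_zero]
  · intro x hx; exact chi_low (dec_low h2 (by linarith))
  · intro x hx; exact chi_high (dec_high h2 (by linarith))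

/-! Symbolic versions. -/

noncomputable def evAff (A : Q × Q) (x : ℝ) : ℝ := ratOf A.1 * x + ratOf A.2

def compA (A C : Q × Q) : Q × Q := (mulQ A.1 C.1, addQ (mulQ A.1 C.2) A.2)
def encA (B : ℕ) (ω : List ℕ) : Q × Q :=
  ω.foldr (fun c A => (mulQ A.1 (1, 0, B - 1), mulQ (addQ (natQ c) A.2) (1, 0, B - 1)))
    (natQ 1, natQ 0)
def decA (B : ℕ) (ω : List ℕ) : Q × Q :=
  ω.foldr (fun c A => (mulQ A.1 (natQ B), addQ A.2 (negQ (mulQ A.1 (natQ c))))) (natQ 1, natQ 0)
def dS (B : ℕ) (ω : List ℕ) : Q × Q := compA (decA B ω) (natQ 1, negQ (1, 0, 3))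
def stepM (j : ℕ) (A : Q × Q) : Mono := [(1, 0, j, A), (2, 0, j, A)]
def chiM (j : ℕ) (A : Q × Q) : Mono :=
  stepM j (compA (natQ 8, natQ 1) A) ++ stepM j (compA (negQ (natQ 8), natQ 5) A)
def mono (B : ℕ) (sg : Q) (ω₂ ω : List ℕ) (j : ℕ) (ω' : List ℕ) (j' : ℕ) : Mono :=
  cst sg :: (0, 0, j, compA (encA B ω₂) (dS B ω)) :: (chiM j (dS B ω) ++ chiM j' (dS B ω'))
def bP (s : ℕ) : Poly := dM 0 (stepM 0 (natQ 32, negQ (natQ (4 * s + 1))))
def mulP (P R : Poly) : Poly := R.flatMap fun m => P.map fun n => n ++ m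

section prim
variable {α : Type} [Primcodable α]

@[fun_prop] theorem p_compA {f g : α → Q × Q} (hf : Primrec f) (hg : Primrec g) :
    Primrec (fun a => compA (f a) (g a)) := by unfold compA; fun_prop
@[fun_prop] theorem p_encA {f : α → ℕ} {g : α → List ℕ} (hf : Primrec f) (hg : Primrec g) :
    Primrec (fun a => encA (f a) (g a)) := by unfold encA; fun_prop
@[fun_prop] theorem p_decA {f : α → ℕ} {g : α → List ℕ} (hf : Primrec f) (hg : Primrec g) :
    Primrec (fun a => decA (f a) (g a)) := by unfold decA; fun_prop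
@[fun_prop] theorem p_dS {f : α → ℕ} {g : α → List ℕ} (hf : Primrec f) (hg : Primrec g) :
    Primrec (fun a => dS (f a) (g a)) := by unfold dS; fun_prop
@[fun_prop] theorem p_stepM {f : α → ℕ} {g : α → Q × Q} (hf : Primrec f) (hg : Primrec g) :
    Primrec (fun a => stepM (f a) (g a)) := by unfold stepM; fun_prop
@[fun_prop] theorem p_chiM {f : α → ℕ} {g : α → Q × Q} (hf : Primrec f) (hg : Primrec g) :
    Primrec (fun a => chiM (f a) (g a)) := by unfold chiM; fun_prop
@[fun_prop] theorem p_mono {B j j' : α → ℕ} {sg : α → Q} {a b c : α → List ℕ} (h1 : Primrec B)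
    (h2 : Primrec sg) (h3 : Primrec a) (h4 : Primrec b) (h5 : Primrec j) (h6 : Primrec c)
    (h7 : Primrec j') :
    Primrec (fun x => mono (B x) (sg x) (a x) (b x) (j x) (c x) (j' x)) := by
  unfold mono; fun_prop
@[fun_prop] theorem p_mulP {f g : α → Poly} (hf : Primrec f) (hg : Primrec g) :
    Primrec (fun a => mulP (f a) (g a)) := by unfold mulP; fun_prop

end prim

theorem evAff_compA (A C : Q × Q) (x : ℝ) : evAff (compA A C) x = evAff A (evAff C x) := by
  simp only [evAff, compA, ratOf_mulQ, ratOf_addQ]; ring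

theorem evAff_encA {B : ℕ} (hB : 0 < B) (ω : List ℕ) (ξ : ℝ) :
    evAff (encA B ω) ξ = enc B ω ξ := by
  induction ω with
  | nil => simp [evAff, encA, enc]
  | cons c ω ih =>
    rw [enc, ← ih]
    simp only [evAff, encA, List.foldr_cons, ratOf_mulQ, ratOf_addQ, ratOf_natQ,
      ratOf_pair 1 B hB]
    push_cast
    ring

theorem evAff_decA (B : ℕ) (ω : List ℕ) (x : ℝ) : evAff (decA B ω) x = dec B ω x := by
  induction ω generalizing x with
  | nil => simp [evAff, decA, dec]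
  | cons c ω ih =>
    rw [dec, ← ih]
    simp only [evAff, decA, List.foldr_cons, ratOf_mulQ, ratOf_addQ, ratOf_natQ, ratOf_negQ]
    ring

theorem evAff_dS (B : ℕ) (ω : List ℕ) (x : ℝ) : evAff (dS B ω) x = dec B ω (x - 1 / 4) := by
  rw [dS, evAff_compA, evAff_decA]
  congr 1
  simp only [evAff, ratOf_natQ, ratOf_negQ]
  simp only [ratOf]
  push_cast
  ring

theorem evM_stepM (j : ℕ) (A : Q × Q) (p : P4) :
    evM (stepM j A) p = Real.smoothTransition (evAff A (crd j p)) := by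
  rw [← GG_mul_DD]
  simp [stepM, evA, phi, argA, evAff]

theorem evM_chiM (j : ℕ) (A : Q × Q) (p : P4) : evM (chiM j A) p = chi (evAff A (crd j p)) := by
  rw [chiM, evM_append, evM_stepM, evM_stepM, evAff_compA, evAff_compA, chi]
  simp [evAff]

theorem crd_val (j : Fin 4) (p : P4) : crd j.val p = p j := by
  simp [crd, j.isLt]

theorem evM_mono {B : ℕ} (hB : 0 < B) (sg : Q) (ω₂ ω ω' : List ℕ) (j j' : Fin 4) (p : P4) :
    evM (mono B sg ω₂ ω j.val ω' j'.val) p =
      trm B (ratOf sg) ω₂ ω (p j - 1 / 4) ω' (p j' - 1 / 4) := by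
  rw [mono, evM_cons, evM_cons, evM_append, evM_chiM, evM_chiM, evA_cst, evAff_dS, evAff_dS,
    crd_val, crd_val, trm]
  have : evA (0, 0, j.val, compA (encA B ω₂) (dS B ω)) p =
      evAff (compA (encA B ω₂) (dS B ω)) (crd j.val p) := by
    simp [evA, phi, argA, evAff]
  rw [this, evAff_compA, evAff_dS, evAff_encA hB, crd_val]
  ring

theorem evP_bP (s : ℕ) (p : P4) : evP (bP s) p = beta s (p 0) := by
  have h := pd_evM 0 (stepM 0 (natQ 32, negQ (natQ (4 * s + 1)))) p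
  have e : evM (stepM 0 (natQ 32, negQ (natQ (4 * s + 1)))) = fun q : P4 => psi s (q 0) := by
    funext q
    rw [evM_stepM, psi]
    have : crd 0 q = q 0 := crd_val 0 q
    simp only [evAff, this, ratOf_natQ, ratOf_negQ]
    push_cast
    rfl
  rw [e] at h
  have h2 : HasFDerivAt (fun q : P4 => psi s (q 0))
      (beta s (p 0) • (ContinuousLinearMap.proj 0 : P4 →L[ℝ] ℝ)) p :=
    HasDerivAt.comp_hasFDerivAt (f := fun q : P4 => q 0) p (psi_hasDerivAt s (p 0))
      (ContinuousLinearMap.proj 0 : P4 →L[ℝ] ℝ).hasFDerivAt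
  rw [pd, h2.fderiv] at h
  rw [bP]
  simpa using h.symm

theorem evP_mulP (P R : Poly) (p : P4) : evP (mulP P R) p = evP P p * evP R p := by
  rw [mulP, evP_flatMap]
  induction R with
  | nil => simp
  | cons m R ih => rw [List.map_cons, List.sum_cons, ih, evP_map_append, evP_cons, mul_add]

theorem beta_good {s : ℕ} (h1 : 1 ≤ s) (h2 : s ≤ 6) : Good fun p => beta s (p 0) := by
  have a1 : (1 : ℝ) ≤ s := by exact_mod_cast h1
  have a2 : (s : ℝ) ≤ 6 := by exact_mod_cast h2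
  exact Good.coord 0 (fun x hx => beta_zero_lt (by linarith)) fun x hx =>
    beta_zero_gt (by linarith)

theorem Good.sum (n : ℕ) {F : ℕ → P4 → ℝ} (h : ∀ i < n, Good (F i)) :
    Good fun p => ∑ i ∈ Finset.range n, F i p := by
  induction n with
  | zero => simpa using Good.const 0
  | succ n ih =>
    simp only [Finset.sum_range_succ]
    exact (ih fun i hi => h i (by omega)).add (h n (by omega))

theorem beta_slot {n : ℕ} {t : ℝ} (h1 : (n : ℝ) ≤ 8 * t) (h2 : 8 * t ≤ n + 1) (s : ℕ) :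
    beta s t = if n = s then beta n t else 0 := by
  split_ifs with h
  · rw [h]
  · rcases lt_or_gt_of_ne h with h | h
    · have : (n : ℝ) + 1 ≤ s := by exact_mod_cast h
      exact beta_zero_lt (by linarith)
    · have : (s : ℝ) + 1 ≤ n := by exact_mod_cast h
      exact beta_zero_gt (by linarith)

theorem beta_fract {n : ℕ} {t : ℝ} (h1 : (n : ℝ) ≤ 8 * t) (h2 : 8 * t ≤ n + 1) {s : ℕ}
    (hs : s < 8) : beta s (Int.fract t) = if n % 8 = s then beta n t else 0 := by
  have ht : 0 ≤ t := by have : (0 : ℝ) ≤ n := Nat.cast_nonneg n; linarith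
  have e : Int.fract t + (⌊t⌋₊ : ℝ) = t := by
    rw [natCast_floor_eq_intCast_floor ht, Int.fract_add_floor]
  rw [← beta_add s ⌊t⌋₊, e, beta_slot h1 h2]
  have a1 : (⌊t⌋₊ : ℝ) ≤ t := Nat.floor_le ht
  have a2 : t < ⌊t⌋₊ + 1 := Nat.lt_floor_add_one t
  have b1 : n < 8 * ⌊t⌋₊ + 8 := by
    have : (n : ℝ) < 8 * ⌊t⌋₊ + 8 := by linarith
    exact_mod_cast this
  by_cases hn : n = s + 8 * ⌊t⌋₊
  · rw [if_pos hn, if_pos (by omega)]
  · rw [if_neg hn]
    split_ifs with h
    · have b2 : n + 1 ≤ 8 * ⌊t⌋₊ := by omega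
      have : (n : ℝ) + 1 ≤ 8 * ⌊t⌋₊ := by exact_mod_cast b2
      exact (beta_zero_gt (by linarith)).symm
    · rfl

end Vale.Agent.P113
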